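import Vale.Agent.P280.H989.AC

/-! P280, stage 2: definitions. -/

open DirectSum Vale.Agent.P280.T Vale.Agent.P280.H127 Vale.Agent.P280.N

namespace Vale.Agent.P280.N2

variable {r : ℕ} {R : Type} [CommRing R] [IsDomain R] [Algebra ℂ R]

/-- Every tangent vector at `y` of weight `χ` is the value of a global field of weight `χ`. -/
def Real (𝒜 : ℕ × (Fin r → ℤ) → Submodule ℂ R) (y : FP 𝒜) (χ : Fin r → ℤ) : Prop :=
  ∀ t : R →ₗ[ℂ] ℂ, IsTangent y.q t → HasWeight 𝒜 y.ν χ t →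
    ∃ D : VF R, Glob D ∧ HV 𝒜 χ D ∧ ValV y.q D t

/-- No vector weights. -/
def NoVec (𝒜 : ℕ × (Fin r → ℤ) → Submodule ℂ R) (n : ℕ) (f : Fin (n + 1) → Fin r → ℤ) : Prop :=
  n = 3 → ∀ i j, i ≠ j → ¬ Wt 𝒜 (f i + f j)

/-- The chamber `c (f 0) > c (f 1) > 0 > c (f 2) > ⋯ > c (f n)`. -/
structure Ch2 (𝒜 : ℕ × (Fin r → ℤ) → Submodule ℂ R) (n : ℕ) (f : Fin (n + 1) → Fin r → ℤ)
    (c : (Fin r → ℤ) →+ ℤ) : Prop where
  ne : ∀ μ, Wt 𝒜 μ → c μ ≠ 0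
  ord : ∀ i j : Fin (n + 1), i < j → c (f j) < c (f i)
  pos : 0 < c (f 1)
  neg : ∀ j : Fin (n + 1), 2 ≤ (j : ℕ) → c (f j) < 0

/-- The field `D` does not vanish along the curve `φ`. -/
def NZ (φ : R →ₐ[ℂ] Polynomial ℂ) (D : VF R) : Prop := ∃ h g : R, D (iK h) = iK g ∧ φ g ≠ 0

/-- `ω` is in no proper face: it is not maximal for any `l` with `0 < l ω`. -/
def Inter (𝒜 : ℕ × (Fin r → ℤ) → Submodule ℂ R) (ω : Fin r → ℤ) : Prop :=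
  ∀ l : (Fin r → ℤ) →+ ℤ, 0 < l ω → ∃ μ, Wt 𝒜 μ ∧ l ω < l μ

/-- `μ` is orthogonal to the component. -/
def Nul {n : ℕ} (β : Fin (n + 1) → Fin (n + 1) → ((Fin r → ℤ) →+ ℤ)) (μ : Fin r → ℤ) : Prop :=
  ∀ i j, i ≠ j → β i j μ = 0

end Vale.Agent.P280.N2
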