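import Vale.Agent.P280.N2.Defs
import Vale.Agent.P280.H155.Nef0

/-! P280, stage 2, block A: the relations between the positive weights in the chamber `Ch2`. -/

open DirectSum Vale.Agent.P280.T Vale.Agent.P280.H127 Vale.Agent.P280.N Vale.Agent.P280.N.H989

set_option linter.unusedSectionVars false

namespace Vale.Agent.P280.N2

variable {r : ℕ} {R : Type} [CommRing R] [IsDomain R] [Algebra ℂ R]
  {𝒜 : ℕ × (Fin r → ℤ) → Submodule ℂ R} [GradedAlgebra 𝒜]

theorem one_val {n : ℕ} (hn : 2 ≤ n) : ((1 : Fin (n + 1)) : ℕ) = 1 := by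
  obtain ⟨m, rfl⟩ : ∃ m, n = m + 2 := ⟨n - 2, by omega⟩
  rfl

section
variable {N : ℤ} {n : ℕ} {f : Fin (n + 1) → Fin r → ℤ}
  {β : Fin (n + 1) → Fin (n + 1) → ((Fin r → ℤ) →+ ℤ)} {E F : Fin (n + 1) → Fin (n + 1) → VF R}
  {c : (Fin r → ℤ) →+ ℤ}

/-- The functional which bounds the number of short weights in a relation. -/
def sgm (β : Fin (n + 1) → Fin (n + 1) → ((Fin r → ℤ) →+ ℤ)) : (Fin r → ℤ) →+ ℤ :=
  β 0 (Fin.last n) + β 1 (Fin.last n)

omit [GradedAlgebra 𝒜] in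
/-- The positive weights in the chamber `Ch2`. -/
theorem cls (hA : AC 𝒜 N n f β E F) (hv : NoVec 𝒜 n f) (hc : Ch2 𝒜 n f c) {ω : Fin r → ℤ}
    (hω : Wt 𝒜 ω) (h0 : 0 < c ω) :
    (ω = f 0 - f 1 ∧ sgm β ω = 0) ∨ (sgm β ω = 0 ∧ β 0 1 ω = 0) ∨
      (2 * N ≤ sgm β ω ∧ 0 ≤ β 0 1 ω + sgm β ω ∧
        (ω = -f (Fin.last n) ∨ ∃ i, i < Fin.last n ∧ ω = f i - f (Fin.last n))) ∨
      (sgm β ω = N ∧ ∃ (i : Fin (n + 1)) (g : Fin r → ℤ), (i = 0 ∨ i = 1) ∧ ω = f i - g ∧
        (g = 0 ∨ (c g < 0 ∧ β 0 1 g = 0))) := by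
  have hn := hA.n2
  have hN := hA.N0
  have v1 := one_val hn
  have v0 : ((0 : Fin (n + 1)) : ℕ) = 0 := rfl
  have vL : ((Fin.last n : Fin (n + 1)) : ℕ) = n := rfl
  have n01 : (0 : Fin (n + 1)) ≠ 1 := fun h => by rw [Fin.ext_iff] at h; omega
  have n0L : (0 : Fin (n + 1)) ≠ Fin.last n := fun h => by rw [Fin.ext_iff] at h; omega
  have n1L : (1 : Fin (n + 1)) ≠ Fin.last n := fun h => by rw [Fin.ext_iff] at h; omega
  have b01 : ∀ k, β 0 1 (f k) = (if k = 0 then N else 0) - (if k = 1 then N else 0) :=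
    fun k => hA.be 0 1 k n01
  have bs : ∀ k, sgm β (f k) = (if k = 0 then N else 0) + (if k = 1 then N else 0) -
      (if k = Fin.last n then 2 * N else 0) := by
    intro k
    rw [sgm, AddMonoidHom.add_apply, hA.be 0 _ k n0L, hA.be 1 _ k n1L]
    split_ifs <;> ring
  have tri : ∀ k : Fin (n + 1), k = 0 ∨ k = 1 ∨ (2 ≤ (k : ℕ) ∧ k ≠ 0 ∧ k ≠ 1) := by
    intro k
    by_cases h1 : k = 0
    · exact Or.inl h1
    by_cases h2 : k = 1
    · exact Or.inr (Or.inl h2)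
    refine Or.inr (Or.inr ⟨?_, h1, h2⟩)
    rw [Fin.ext_iff] at h1 h2
    omega
  have cf0 : 0 < c (f 0) := hc.pos.trans (hc.ord 0 1 (by rw [Fin.lt_def]; omega))
  rcases hA.S ω hω with h1 | ⟨i, j, hij, rfl⟩ | ⟨i, rfl | rfl⟩ | ⟨h3, i, j, hij, rfl⟩
  · refine Or.inr (Or.inl ⟨?_, h1 0 1 n01⟩)
    rw [sgm, AddMonoidHom.add_apply, h1 _ _ n0L, h1 _ _ n1L, add_zero]
  · have hlt : i < j := by
      rcases lt_or_gt_of_ne hij with h | h
      · exact h
      · have := hc.ord j i h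
        rw [map_sub] at h0
        omega
    have hltv : (i : ℕ) < j := hlt
    rcases tri i with rfl | rfl | ⟨hi2, hi0, hi1⟩
    · rcases tri j with rfl | rfl | ⟨hj2, hj0, hj1⟩
      · exact absurd rfl hij
      · refine Or.inl ⟨rfl, ?_⟩
        rw [map_sub, bs, bs, if_pos rfl, if_neg n01, if_neg n0L, if_neg n01.symm, if_pos rfl,
          if_neg n1L]
        ring
      · by_cases hjL : j = Fin.last n
        · subst hjL
          refine Or.inr (Or.inr (Or.inl ⟨?_, ?_, Or.inr ⟨0, hlt, rfl⟩⟩))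
          · rw [map_sub, bs, bs, if_pos rfl, if_neg n01, if_neg n0L, if_neg hj0, if_neg hj1,
              if_pos rfl]
            linarith
          · rw [map_sub, map_sub, bs, bs, b01, b01, if_pos rfl, if_neg n01, if_neg n0L,
              if_neg hj0, if_neg hj1, if_pos rfl]
            linarith
        · refine Or.inr (Or.inr (Or.inr ⟨?_, 0, f j, Or.inl rfl, rfl, Or.inr ⟨hc.neg j hj2, ?_⟩⟩))
          · rw [map_sub, bs, bs, if_pos rfl, if_neg n01, if_neg n0L, if_neg hj0, if_neg hj1,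
              if_neg hjL]
            ring
          · rw [b01, if_neg hj0, if_neg hj1, sub_zero]
    · rcases tri j with rfl | rfl | ⟨hj2, hj0, hj1⟩
      · omega
      · exact absurd rfl hij
      · by_cases hjL : j = Fin.last n
        · subst hjL
          refine Or.inr (Or.inr (Or.inl ⟨?_, ?_, Or.inr ⟨1, hlt, rfl⟩⟩))
          · rw [map_sub, bs, bs, if_neg n01.symm, if_pos rfl, if_neg n1L, if_neg hj0, if_neg hj1,
              if_pos rfl]
            linarith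
          · rw [map_sub, map_sub, bs, bs, b01, b01, if_neg n01.symm, if_pos rfl, if_neg n1L,
              if_neg hj0, if_neg hj1, if_pos rfl]
            linarith
        · refine Or.inr (Or.inr (Or.inr ⟨?_, 1, f j, Or.inr rfl, rfl, Or.inr ⟨hc.neg j hj2, ?_⟩⟩))
          · rw [map_sub, bs, bs, if_neg n01.symm, if_pos rfl, if_neg n1L, if_neg hj0, if_neg hj1,
              if_neg hjL]
            ring
          · rw [b01, if_neg hj0, if_neg hj1, sub_zero]
    · have hj2 : 2 ≤ (j : ℕ) := by omega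
      have hj0 : j ≠ 0 := fun h => by rw [Fin.ext_iff] at h; omega
      have hj1 : j ≠ 1 := fun h => by rw [Fin.ext_iff] at h; omega
      have hiL : i ≠ Fin.last n := fun h => by
        rw [Fin.ext_iff] at h
        have := j.isLt
        omega
      by_cases hjL : j = Fin.last n
      · subst hjL
        refine Or.inr (Or.inr (Or.inl ⟨?_, ?_, Or.inr ⟨i, hlt, rfl⟩⟩))
        · rw [map_sub, bs, bs, if_neg hi0, if_neg hi1, if_neg hiL, if_neg hj0, if_neg hj1,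
            if_pos rfl]
          linarith
        · rw [map_sub, map_sub, bs, bs, b01, b01, if_neg hi0, if_neg hi1, if_neg hiL, if_neg hj0,
            if_neg hj1, if_pos rfl]
          linarith
      · refine Or.inr (Or.inl ⟨?_, ?_⟩)
        · rw [map_sub, bs, bs, if_neg hi0, if_neg hi1, if_neg hiL, if_neg hj0, if_neg hj1,
            if_neg hjL]
          ring
        · rw [map_sub, b01, b01, if_neg hi0, if_neg hi1, if_neg hj0, if_neg hj1]
          ring
  · rcases tri i with rfl | rfl | ⟨hi2, hi0, hi1⟩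
    · refine Or.inr (Or.inr (Or.inr ⟨?_, 0, 0, Or.inl rfl, (sub_zero _).symm, Or.inl rfl⟩))
      rw [bs, if_pos rfl, if_neg n01, if_neg n0L]
      ring
    · refine Or.inr (Or.inr (Or.inr ⟨?_, 1, 0, Or.inr rfl, (sub_zero _).symm, Or.inl rfl⟩))
      rw [bs, if_neg n01.symm, if_pos rfl, if_neg n1L]
      ring
    · have := hc.neg i hi2
      omega
  · rw [map_neg] at h0
    rcases tri i with rfl | rfl | ⟨hi2, hi0, hi1⟩
    · omega
    · have := hc.pos
      omega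
    · by_cases hiL : i = Fin.last n
      · subst hiL
        refine Or.inr (Or.inr (Or.inl ⟨?_, ?_, Or.inl rfl⟩))
        · rw [map_neg, bs, if_neg hi0, if_neg hi1, if_pos rfl]
          linarith
        · rw [map_neg, map_neg, bs, b01, if_neg hi0, if_neg hi1, if_pos rfl]
          linarith
      · refine Or.inr (Or.inl ⟨?_, ?_⟩)
        · rw [map_neg, bs, if_neg hi0, if_neg hi1, if_neg hiL]
          ring
        · rw [map_neg, b01, if_neg hi0, if_neg hi1]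
          ring
  · exact absurd hω (hv h3 i j hij)

theorem nonneg_sum (g : (Fin r → ℤ) →+ ℤ) {W : List (Fin r → ℤ)} (h : ∀ ω ∈ W, 0 ≤ g ω) :
    0 ≤ g W.sum := by
  rw [map_list_sum]
  refine List.sum_nonneg ?_
  intro x hx
  obtain ⟨ω, hω, rfl⟩ := List.mem_map.1 hx
  exact h ω hω

theorem nil_of (g : (Fin r → ℤ) →+ ℤ) {W : List (Fin r → ℤ)} (h : ∀ ω ∈ W, 0 < g ω)
    (hs : g W.sum ≤ 0) : W = [] := by
  cases W with
  | nil => rfl
  | cons a l =>
    exfalso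
    have h1 := h a (by simp)
    have h2 := nonneg_sum g (W := l) fun ω hω => (h ω (by simp [hω])).le
    rw [List.sum_cons, map_add] at hs
    omega

/-- Relations with sum `f 0` or `f 1`. -/
theorem rel_sum (hA : AC 𝒜 N n f β E F) (hv : NoVec 𝒜 n f) (hc : Ch2 𝒜 n f c)
    {W : List (Fin r → ℤ)} (hW : ∀ ω ∈ W, Wt 𝒜 ω ∧ 0 < c ω) {i : Fin (n + 1)}
    (hi : i = 0 ∨ i = 1) (hs : W.sum = f i) :
    W = [f i] ∨ (i = 0 ∧ (W = [f 1, f 0 - f 1] ∨ W = [f 0 - f 1, f 1])) := by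
  have hn := hA.n2
  have hN := hA.N0
  have v1 := one_val hn
  have v0 : ((0 : Fin (n + 1)) : ℕ) = 0 := rfl
  have vL : ((Fin.last n : Fin (n + 1)) : ℕ) = n := rfl
  have n01 : (0 : Fin (n + 1)) ≠ 1 := fun h => by rw [Fin.ext_iff] at h; omega
  have n0L : (0 : Fin (n + 1)) ≠ Fin.last n := fun h => by rw [Fin.ext_iff] at h; omega
  have n1L : (1 : Fin (n + 1)) ≠ Fin.last n := fun h => by rw [Fin.ext_iff] at h; omega
  have b01 : ∀ k, β 0 1 (f k) = (if k = 0 then N else 0) - (if k = 1 then N else 0) :=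
    fun k => hA.be 0 1 k n01
  have b0 : β 0 1 (f 0) = N := by rw [b01, if_pos rfl, if_neg n01, sub_zero]
  have b1 : β 0 1 (f 1) = -N := by rw [b01, if_neg n01.symm, if_pos rfl, zero_sub]
  have s01 : ∀ k, k = 0 ∨ k = 1 → sgm β (f k) = N := by
    rintro k (rfl | rfl) <;> rw [sgm, AddMonoidHom.add_apply, hA.be 0 _ _ n0L, hA.be 1 _ _ n1L]
    · rw [if_pos rfl, if_neg n0L, if_neg n01]; ring
    · rw [if_pos rfl, if_neg n1L, if_neg n01.symm]; ring
  have sn : ∀ ω ∈ W, 0 ≤ sgm β ω := by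
    intro ω hω
    rcases cls hA hv hc (hW ω hω).1 (hW ω hω).2 with h | h | h | h
    · exact h.2.ge
    · exact h.1.ge
    · exact le_trans (by omega) h.1
    · exact hN.le.trans h.1.ge
  obtain ⟨ω, hω, hω0⟩ : ∃ ω ∈ W, sgm β ω ≠ 0 := by
    by_contra h
    push Not at h
    have h1 : sgm β W.sum ≤ 0 := by
      have := nonneg_sum (-sgm β) (W := W) fun ω hω => by
        rw [AddMonoidHom.neg_apply, h ω hω, neg_zero]
      rw [AddMonoidHom.neg_apply] at this
      omega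
    rw [hs, s01 i hi] at h1
    omega
  obtain ⟨l1, l2, rfl⟩ := List.append_of_mem hω
  have hrest : ∀ ψ ∈ l1 ++ l2, ψ ∈ l1 ++ ω :: l2 := by
    intro ψ hψ
    simp only [List.mem_append, List.mem_cons] at hψ ⊢
    tauto
  have hsum : ω + (l1 ++ l2).sum = f i := by
    rw [← hs]
    simp only [List.sum_append, List.sum_cons]
    abel
  have hσ : sgm β ω + sgm β (l1 ++ l2).sum = N := by rw [← map_add, hsum, s01 i hi]
  have hσr := nonneg_sum (sgm β) (W := l1 ++ l2) fun ψ hψ => sn ψ (hrest ψ hψ)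
  have hr0 : ∀ ψ ∈ l1 ++ l2, sgm β ω = N → sgm β ψ = 0 := by
    intro ψ hψ hωN
    obtain ⟨m1, m2, hm⟩ := List.append_of_mem hψ
    have h1 : sgm β ψ + sgm β (m1 ++ m2).sum = sgm β (l1 ++ l2).sum := by
      rw [hm, ← map_add]
      congr 1
      simp only [List.sum_append, List.sum_cons]
      abel
    have h2 := nonneg_sum (sgm β) (W := m1 ++ m2) fun ψ' hψ' => sn ψ' (hrest ψ' (by
      rw [hm]
      simp only [List.mem_append, List.mem_cons] at hψ' ⊢
      tauto))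
    have h3 := sn ψ (hrest ψ hψ)
    omega
  rcases cls hA hv hc (hW ω hω).1 (hW ω hω).2 with h | h | h | h
  · exact absurd h.2 hω0
  · exact absurd h.1 hω0
  · have := h.1
    omega
  obtain ⟨hωN, i', g, hi', hωg, hg⟩ := h
  have hgc : c g ≤ 0 := by
    rcases hg with rfl | hg
    · rw [map_zero]
    · exact hg.1.le
  have hgb : β 0 1 g = 0 := by
    rcases hg with rfl | hg
    · rw [map_zero]
    · exact hg.2
  have hbr : ∀ ψ ∈ l1 ++ l2, ψ = f 0 - f 1 ∨ β 0 1 ψ = 0 := by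
    intro ψ hψ
    have h3 := hW ψ (hrest ψ hψ)
    rcases cls hA hv hc h3.1 h3.2 with h | h | h | h
    · exact Or.inl h.1
    · exact Or.inr h.2
    · have h4 := hr0 ψ hψ hωN
      have := h.1
      omega
    · have h4 := hr0 ψ hψ hωN
      have := h.1
      omega
  have hrs : (l1 ++ l2).sum = f i - f i' + g := by
    rw [hωg] at hsum
    rw [← hsum]
    abel
  by_cases hii : i' = i
  · subst hii
    rw [sub_self, zero_add] at hrs
    have hnil := nil_of c (W := l1 ++ l2) (fun ψ hψ => (hW ψ (hrest ψ hψ)).2)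
      (by rw [hrs]; exact hgc)
    obtain ⟨rfl, rfl⟩ := List.append_eq_nil_iff.1 hnil
    left
    rw [List.append_nil, List.sum_nil] at hrs
    rw [hωg, ← hrs, sub_zero, List.nil_append]
  · have hβs : β 0 1 (l1 ++ l2).sum = β 0 1 (f i) - β 0 1 (f i') := by
      rw [hrs, map_add, map_sub, hgb, add_zero]
    rcases hi with rfl | rfl
    · have hi1 : i' = 1 := by
        rcases hi' with h | h
        · exact absurd h hii
        · exact h
      subst hi1
      rw [b0, b1] at hβs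
      obtain ⟨ψ, hψ, hψ1⟩ : ∃ ψ ∈ l1 ++ l2, ψ = f 0 - f 1 := by
        by_contra h
        push Not at h
        have h1 : ∀ ψ ∈ l1 ++ l2, β 0 1 ψ = 0 := fun ψ hψ => (hbr ψ hψ).resolve_left (h ψ hψ)
        have h2 := nonneg_sum (-β 0 1) (W := l1 ++ l2) fun ψ hψ => by
          rw [AddMonoidHom.neg_apply, h1 ψ hψ, neg_zero]
        rw [AddMonoidHom.neg_apply] at h2
        omega
      obtain ⟨m1, m2, hm⟩ := List.append_of_mem hψ
      have h1 : (m1 ++ m2).sum = g := by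
        have h2 : ψ + (m1 ++ m2).sum = (l1 ++ l2).sum := by
          rw [hm]
          simp only [List.sum_append, List.sum_cons]
          abel
        rw [hrs, hψ1] at h2
        exact add_left_cancel h2
      have hnil := nil_of c (W := m1 ++ m2) (fun ψ' hψ' => (hW ψ' (hrest ψ' (by
        rw [hm]
        simp only [List.mem_append, List.mem_cons] at hψ' ⊢
        tauto))).2) (by rw [h1]; exact hgc)
      rw [hnil, List.sum_nil] at h1
      obtain ⟨rfl, rfl⟩ := List.append_eq_nil_iff.1 hnil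
      have hω1 : ω = f 1 := by rw [hωg, ← h1, sub_zero]
      rw [List.nil_append, hψ1] at hm
      right
      refine ⟨rfl, ?_⟩
      rcases List.append_eq_singleton_iff.1 hm with ⟨rfl, rfl⟩ | ⟨rfl, rfl⟩
      · left
        rw [hω1, List.nil_append]
      · right
        rw [hω1]
        rfl
    · exfalso
      have hi0 : i' = 0 := by
        rcases hi' with h | h
        · exact h
        · exact absurd h hii
      subst hi0
      rw [b0, b1] at hβs
      have h2 := nonneg_sum (β 0 1) (W := l1 ++ l2) fun ψ hψ => by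
        rcases hbr ψ hψ with h | h
        · rw [h, map_sub, b0, b1]; omega
        · exact h.ge
      omega

/-- The field relation, as a list. -/
theorem rel_list (hA : AC 𝒜 N n f β E F) (hv : NoVec 𝒜 n f) (hc : Ch2 𝒜 n f c)
    {W : List (Fin r → ℤ)} (hW : ∀ ω ∈ W, Wt 𝒜 ω ∧ 0 < c ω) (hne : W ≠ [])
    {psi : Fin r → ℤ} (hpsi : psi = 0 ∨ Wt 𝒜 psi) (he : psi = -f (Fin.last n) + W.sum) :
    (psi = f 0 - f (Fin.last n) ∧ W.sum = f 0) ∨ (psi = f 1 - f (Fin.last n) ∧ W.sum = f 1) := by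
  have hn := hA.n2
  have hN := hA.N0
  have v1 := one_val hn
  have v0 : ((0 : Fin (n + 1)) : ℕ) = 0 := rfl
  have vL : ((Fin.last n : Fin (n + 1)) : ℕ) = n := rfl
  have n01 : (0 : Fin (n + 1)) ≠ 1 := fun h => by rw [Fin.ext_iff] at h; omega
  have n0L : (0 : Fin (n + 1)) ≠ Fin.last n := fun h => by rw [Fin.ext_iff] at h; omega
  have n1L : (1 : Fin (n + 1)) ≠ Fin.last n := fun h => by rw [Fin.ext_iff] at h; omega
  have hcL : c (f (Fin.last n)) < 0 := hc.neg _ (by rw [vL]; omega)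
  have hcW : 0 < c W.sum := by
    by_contra h
    exact hne (nil_of c (fun ω hω => (hW ω hω).2) (by omega))
  have hcp : 0 < c psi := by
    rw [he, map_add, map_neg]
    omega
  have hwp : Wt 𝒜 psi := by
    rcases hpsi with rfl | h
    · rw [map_zero] at hcp
      exact absurd hcp (lt_irrefl _)
    · exact h
  have sn : ∀ ω ∈ W, 0 ≤ sgm β ω := by
    intro ω hω
    rcases cls hA hv hc (hW ω hω).1 (hW ω hω).2 with h | h | h | h
    · exact h.2.ge
    · exact h.1.ge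
    · exact le_trans (by omega) h.1
    · exact hN.le.trans h.1.ge
  have hσ := nonneg_sum (sgm β) sn
  have sL : sgm β (f (Fin.last n)) = -(2 * N) := by
    rw [sgm, AddMonoidHom.add_apply, hA.be 0 _ _ n0L, hA.be 1 _ _ n1L, if_neg n0L.symm,
      if_neg n1L.symm, if_pos rfl]
    ring
  have hσp : 2 * N ≤ sgm β psi := by
    rw [he, map_add, map_neg, sL]
    omega
  rcases cls hA hv hc hwp hcp with h | h | h | h
  · have := h.2
    omega
  · have := h.1
    omega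
  · rcases h.2.2 with h1 | ⟨i, hi, h1⟩
    · exfalso
      have h2 : W.sum = 0 := by
        rw [h1] at he
        exact (add_eq_left.1 he.symm)
      rw [h2, map_zero] at hcW
      exact lt_irrefl _ hcW
    · have h2 : W.sum = f i := by
        rw [h1] at he
        have h3 : W.sum = (f i - f (Fin.last n)) + f (Fin.last n) := by rw [he]; abel
        rw [h3]
        abel
      have hi2 : ¬ 2 ≤ (i : ℕ) := by
        intro h3
        have := hc.neg i h3
        rw [h2] at hcW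
        omega
      have h01 : i = 0 ∨ i = 1 := by
        rcases Nat.lt_or_ge (i : ℕ) 1 with h3 | h3
        · left
          rw [Fin.ext_iff]
          omega
        · right
          rw [Fin.ext_iff]
          omega
      rcases h01 with rfl | rfl
      · exact Or.inl ⟨h1, h2⟩
      · exact Or.inr ⟨h1, h2⟩
  · have := h.1
    omega

/-- `b = f 0` is no wall. -/
theorem not_neg_f0 (H : Hyp 𝒜) (hA : AC 𝒜 N n f β E F) (hc : Ch2 𝒜 n f c) {q : FP 𝒜}
    (hoth : ∀ ψ, q.Pi ψ → ψ ≠ -f 0 → 0 < c ψ) : ¬ q.Pi (-f 0) := by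
  intro hq
  have hn := hA.n2
  have hN := hA.N0
  have v1 := one_val hn
  have v0 : ((0 : Fin (n + 1)) : ℕ) = 0 := rfl
  have n01 : (0 : Fin (n + 1)) ≠ 1 := fun h => by rw [Fin.ext_iff] at h; omega
  have b0 : β 0 1 (f 0) = N := by rw [hA.be 0 1 0 n01, if_pos rfl, if_neg n01, sub_zero]
  have b1 : β 0 1 (f 1) = -N := by rw [hA.be 0 1 1 n01, if_neg n01.symm, if_pos rfl, zero_sub]
  have cp := hc.pos
  have c01 := hc.ord 0 1 (by rw [Fin.lt_def]; omega)
  have hna : ¬ q.Pi (-(f 0 - f 1)) := by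
    intro h
    have h1 := hoth _ h (fun h2 => by
      have h3 : β 0 1 (-(f 0 - f 1)) = β 0 1 (-f 0) := by rw [h2]
      rw [map_neg, map_neg, map_sub, b0, b1] at h3
      omega)
    rw [map_neg, map_sub] at h1
    omega
  have h1 := H155.nef_string0 H hN (H155.toRoot0 (hA.root 0 1 n01)) (hA.root 0 1 n01).int q hna hq
    (by rw [map_neg, b0]; omega)
  have h2 : -f 0 + (f 0 - f 1) = -f 1 := by abel
  rw [h2] at h1
  have h3 := hoth _ h1 (fun h4 => by
    have h5 : β 0 1 (-f 1) = β 0 1 (-f 0) := by rw [h4]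
    rw [map_neg, map_neg, b0, b1] at h5
    omega)
  rw [map_neg] at h3
  omega

theorem eq_two {α : Type*} {b x y : α} {l : ℕ} {M : List α} (hl : 1 ≤ l) (hxy : x ≠ y)
    (h : List.replicate l b ++ M = [x, y]) : l = 1 ∧ b = x ∧ M = [y] := by
  obtain ⟨k, rfl⟩ : ∃ k, l = k + 1 := ⟨l - 1, by omega⟩
  rw [List.replicate_succ, List.cons_append, List.cons.injEq] at h
  obtain ⟨rfl, h2⟩ := h
  cases k with
  | zero => exact ⟨rfl, rfl, by simpa using h2⟩
  | succ k =>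
    rw [List.replicate_succ, List.cons_append, List.cons.injEq] at h2
    exact absurd h2.1 hxy

theorem eq_one {α : Type*} {b x : α} {l : ℕ} {M : List α} (hl : 1 ≤ l)
    (h : List.replicate l b ++ M = [x]) : l = 1 ∧ b = x ∧ M = [] := by
  obtain ⟨k, rfl⟩ : ∃ k, l = k + 1 := ⟨l - 1, by omega⟩
  rw [List.replicate_succ, List.cons_append, List.cons.injEq] at h
  obtain ⟨rfl, h2⟩ := h
  obtain ⟨h3, rfl⟩ := List.append_eq_nil_iff.1 h2
  have : k = 0 := by
    cases k with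
    | zero => rfl
    | succ k => simp [List.replicate_succ] at h3
  exact ⟨by omega, rfl, rfl⟩

theorem wt_list {b : Fin r → ℤ} {q : FP 𝒜} (hb : Wt 𝒜 b) (hcb : 0 < c b)
    (hoth : ∀ ψ, q.Pi ψ → ψ ≠ -b → 0 < c ψ) {l : ℕ} {M : List (Fin r → ℤ)}
    (hM : ∀ ω ∈ M, q.Pi ω ∧ ω ≠ -b) : ∀ ω ∈ List.replicate l b ++ M, Wt 𝒜 ω ∧ 0 < c ω := by
  intro ω hω
  rcases List.mem_append.1 hω with h | h
  · rw [List.eq_of_mem_replicate h]
    exact ⟨hb, hcb⟩
  · exact ⟨⟨q, (hM ω h).1⟩, hoth ω (hM ω h).1 (hM ω h).2⟩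

theorem f1_ne (hA : AC 𝒜 N n f β E F) : f 1 ≠ f 0 - f 1 := by
  intro h
  have hn := hA.n2
  have hN := hA.N0
  have v1 := one_val hn
  have v0 : ((0 : Fin (n + 1)) : ℕ) = 0 := rfl
  have n01 : (0 : Fin (n + 1)) ≠ 1 := fun h => by rw [Fin.ext_iff] at h; omega
  have b0 : β 0 1 (f 0) = N := by rw [hA.be 0 1 0 n01, if_pos rfl, if_neg n01, sub_zero]
  have b1 : β 0 1 (f 1) = -N := by rw [hA.be 0 1 1 n01, if_neg n01.symm, if_pos rfl, zero_sub]
  have h2 : β 0 1 (f 1) = β 0 1 (f 0 - f 1) := by rw [← h]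
  rw [map_sub, b0, b1] at h2
  omega

/-- Poles of functions of weight `f 1` and degree `0`. -/
theorem rel_fun1 (H : Hyp 𝒜) (hA : AC 𝒜 N n f β E F) (hv : NoVec 𝒜 n f) (hc : Ch2 𝒜 n f c)
    {q : FP 𝒜} {b : Fin r → ℤ} (hb : q.Pi (-b)) (hcb : 0 < c b)
    (hoth : ∀ ψ, q.Pi ψ → ψ ≠ -b → 0 < c ψ) {l : ℕ} {M : List (Fin r → ℤ)} (hl : 1 ≤ l)
    (hM : ∀ ω ∈ M, q.Pi ω ∧ ω ≠ -b) (he : f 1 = l • b + M.sum) : l = 1 ∧ b = f 1 ∧ M = [] := by
  have hbw : Wt 𝒜 b := by
    have := wt_neg H ⟨q, hb⟩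
    rwa [neg_neg] at this
  have hs : (List.replicate l b ++ M).sum = f 1 := by
    rw [List.sum_append, List.sum_replicate, he]
  rcases rel_sum hA hv hc (wt_list hbw hcb hoth hM) (Or.inr rfl) hs with h | ⟨h, -⟩
  · exact eq_one hl h
  · have hn := hA.n2
    have v1 := one_val hn
    have v0 : ((0 : Fin (n + 1)) : ℕ) = 0 := rfl
    rw [Fin.ext_iff] at h
    omega

/-- Poles of functions of weight `f 0` and degree `0`. -/
theorem rel_fun0 (H : Hyp 𝒜) (hA : AC 𝒜 N n f β E F) (hv : NoVec 𝒜 n f) (hc : Ch2 𝒜 n f c)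
    {q : FP 𝒜} {b : Fin r → ℤ} (hb : q.Pi (-b)) (hcb : 0 < c b)
    (hoth : ∀ ψ, q.Pi ψ → ψ ≠ -b → 0 < c ψ) {l : ℕ} {M : List (Fin r → ℤ)} (hl : 1 ≤ l)
    (hM : ∀ ω ∈ M, q.Pi ω ∧ ω ≠ -b) (he : f 0 = l • b + M.sum) :
    l = 1 ∧ ((b = f 1 ∧ M = [f 0 - f 1]) ∨ (b = f 0 - f 1 ∧ M = [f 1])) := by
  have hbw : Wt 𝒜 b := by
    have := wt_neg H ⟨q, hb⟩
    rwa [neg_neg] at this
  have hs : (List.replicate l b ++ M).sum = f 0 := by
    rw [List.sum_append, List.sum_replicate, he]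
  rcases rel_sum hA hv hc (wt_list hbw hcb hoth hM) (Or.inl rfl) hs with h | ⟨-, h | h⟩
  · obtain ⟨h1, rfl, h3⟩ := eq_one hl h
    exact absurd hb (not_neg_f0 H hA hc hoth)
  · obtain ⟨h1, h2, h3⟩ := eq_two hl (f1_ne hA) h
    exact ⟨h1, Or.inl ⟨h2, h3⟩⟩
  · obtain ⟨h1, h2, h3⟩ := eq_two hl (f1_ne hA).symm h
    exact ⟨h1, Or.inr ⟨h2, h3⟩⟩

/-- The polar monomials of the fields of weight `-f L`. -/
theorem rel_field (H : Hyp 𝒜) (hA : AC 𝒜 N n f β E F) (hv : NoVec 𝒜 n f) (hc : Ch2 𝒜 n f c)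
    {q : FP 𝒜} {b : Fin r → ℤ} (hb : q.Pi (-b)) (hcb : 0 < c b)
    (hoth : ∀ ψ, q.Pi ψ → ψ ≠ -b → 0 < c ψ) {l : ℕ} {psi : Fin r → ℤ} {M : List (Fin r → ℤ)}
    (hl : 1 ≤ l) (hpsi : psi = 0 ∨ q.Pi psi) (hM : ∀ ω ∈ M, q.Pi ω ∧ ω ≠ -b)
    (he : psi = -f (Fin.last n) + l • b + M.sum) :
    l = 1 ∧ ((b = f 1 ∧ M = [] ∧ psi = f 1 - f (Fin.last n)) ∨
      (b = f 1 ∧ M = [f 0 - f 1] ∧ psi = f 0 - f (Fin.last n)) ∨
      (b = f 0 - f 1 ∧ M = [f 1] ∧ psi = f 0 - f (Fin.last n))) := by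
  have hbw : Wt 𝒜 b := by
    have := wt_neg H ⟨q, hb⟩
    rwa [neg_neg] at this
  have hs : (List.replicate l b ++ M).sum = l • b + M.sum := by
    rw [List.sum_append, List.sum_replicate]
  have hne : List.replicate l b ++ M ≠ [] := by
    intro h
    have h1 := (List.append_eq_nil_iff.1 h).1
    obtain ⟨k, rfl⟩ : ∃ k, l = k + 1 := ⟨l - 1, by omega⟩
    simp [List.replicate_succ] at h1
  rcases rel_list hA hv hc (wt_list hbw hcb hoth hM) hne (hpsi.imp id fun h => ⟨q, h⟩)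
    (by rw [hs, he, add_assoc]) with ⟨h1, h2⟩ | ⟨h1, h2⟩
  · rw [hs] at h2
    obtain ⟨h3, h4 | h4⟩ := rel_fun0 H hA hv hc hb hcb hoth hl hM h2.symm
    · exact ⟨h3, Or.inr (Or.inl ⟨h4.1, h4.2, h1⟩)⟩
    · exact ⟨h3, Or.inr (Or.inr ⟨h4.1, h4.2, h1⟩)⟩
  · rw [hs] at h2
    obtain ⟨h3, h4, h5⟩ := rel_fun1 H hA hv hc hb hcb hoth hl hM h2.symm
    exact ⟨h3, Or.inl ⟨h4, h5, h1⟩⟩

theorem pos_list (hc : Ch2 𝒜 n f c) {p : FP 𝒜} (hp : Pos c p) {M : List (Fin r → ℤ)}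
    (hM : ∀ ω ∈ M, p.Pi ω) : ∀ ω ∈ M, Wt 𝒜 ω ∧ 0 < c ω := fun ω hω =>
  ⟨⟨p, hM ω hω⟩, lt_of_le_of_ne (hp ω (hM ω hω)) (hc.ne ω ⟨p, hM ω hω⟩).symm⟩

/-- The monomials of weight `f 1` at the source. -/
theorem rel_src1 (hA : AC 𝒜 N n f β E F) (hv : NoVec 𝒜 n f) (hc : Ch2 𝒜 n f c) {p : FP 𝒜}
    (hp : Pos c p) {M : List (Fin r → ℤ)} (hM : ∀ ω ∈ M, p.Pi ω) (hs : M.sum = f 1) :
    M = [f 1] := by
  rcases rel_sum hA hv hc (pos_list hc hp hM) (Or.inr rfl) hs with h | ⟨h, -⟩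
  · exact h
  · have hn := hA.n2
    have v1 := one_val hn
    have v0 : ((0 : Fin (n + 1)) : ℕ) = 0 := rfl
    rw [Fin.ext_iff] at h
    omega

/-- The monomials of weight `f 0` at the source. -/
theorem rel_src0 (hA : AC 𝒜 N n f β E F) (hv : NoVec 𝒜 n f) (hc : Ch2 𝒜 n f c) {p : FP 𝒜}
    (hp : Pos c p) {M : List (Fin r → ℤ)} (hM : ∀ ω ∈ M, p.Pi ω) (hs : M.sum = f 0) :
    M = [f 0] ∨ M = [f 1, f 0 - f 1] ∨ M = [f 0 - f 1, f 1] := by
  rcases rel_sum hA hv hc (pos_list hc hp hM) (Or.inl rfl) hs with h | ⟨-, h⟩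
  · exact Or.inl h
  · exact Or.inr h

/-- The monomials of the fields of weight `-f L` at the source. -/
theorem rel_srcF (hA : AC 𝒜 N n f β E F) (hv : NoVec 𝒜 n f) (hc : Ch2 𝒜 n f c) {p : FP 𝒜}
    (hp : Pos c p) {psi : Fin r → ℤ} {M : List (Fin r → ℤ)} (hpsi : psi = 0 ∨ p.Pi psi)
    (hM : ∀ ω ∈ M, p.Pi ω) (he : psi = -f (Fin.last n) + M.sum) :
    (M = [] ∧ psi = -f (Fin.last n)) ∨ (M = [f 1] ∧ psi = f 1 - f (Fin.last n)) ∨
      ((M = [f 0] ∨ M = [f 1, f 0 - f 1] ∨ M = [f 0 - f 1, f 1]) ∧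
        psi = f 0 - f (Fin.last n)) := by
  by_cases hne : M = []
  · subst hne
    exact Or.inl ⟨rfl, by rw [he, List.sum_nil, add_zero]⟩
  rcases rel_list hA hv hc (pos_list hc hp hM) hne (hpsi.imp id fun h => ⟨p, h⟩) he with
    ⟨h1, h2⟩ | ⟨h1, h2⟩
  · exact Or.inr (Or.inr ⟨rel_src0 hA hv hc hp hM h2, h1⟩)
  · exact Or.inr (Or.inl ⟨rel_src1 hA hv hc hp hM h2, h1⟩)

end

end Vale.Agent.P280.N2
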