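import Vale.Agent.P280.N2.Rel
import Vale.Agent.P280.N.A10
import Vale.Agent.P280.H900.Mon

/-! P280, stage 2, block A: the fields of weight `-f L` at a wall point. -/

open DirectSum Vale.Agent.P280.T Vale.Agent.P280.H127 Vale.Agent.P280.N Vale.Agent.P280.N.H989

set_option linter.unusedSectionVars false

namespace Vale.Agent.P280.N2

variable {r : ℕ} {R : Type} [CommRing R] [IsDomain R] [Algebra ℂ R]
  {𝒜 : ℕ × (Fin r → ℤ) → Submodule ℂ R} [GradedAlgebra 𝒜]

/-- A coordinate in the direction of a tangent weight. -/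
theorem exists_crd {y : FP 𝒜} {χ : Fin r → ℤ} (hχ : y.Pi χ) (h0 : χ ≠ 0) :
    ∃ d z, Crd y χ d z := by
  obtain ⟨v, hv, hw, hne⟩ := hχ
  obtain ⟨d, n, h, hh, h1⟩ := hne 0
  rw [zero_mul, zero_mul] at h1
  have h2 := hw d n h hh h1
  subst h2
  refine ⟨d, h, hh, ?_, v, hv, hw, h1⟩
  by_contra h3
  have h4 := y.fix d _ h hh h3
  apply h0
  have h5 : d • y.ν + χ = d • y.ν + 0 := by rw [h4, add_zero]
  exact add_left_cancel h5

/-- Lemma M in the form used at the walls: the normal form modulo `W`. -/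
theorem wall_gen (H : Hyp 𝒜) {q : FP 𝒜} {c : (Fin r → ℤ) →+ ℤ} {b lam : Fin r → ℤ}
    (hb : q.Pi (-b)) (hcb : 0 < c b) (hoth : ∀ ψ, q.Pi ψ → ψ ≠ -b → 0 < c ψ) {ι : Type}
    [Fintype ι] {w : ι → VF R} {χ : ι → Fin r → ℤ} (hw : Ind q w χ)
    (hrel : ∀ (l : ℕ) (psi : Fin r → ℤ) (M : List (Fin r → ℤ)), 1 ≤ l →
      (psi = 0 ∨ q.Pi psi) → (∀ ω ∈ M, q.Pi ω ∧ ω ≠ -b) → psi = lam + l • b + M.sum →
      ∃ i, psi = χ i) {v : VF R} (hv : HV 𝒜 lam v)
    (hk : ∀ d z, Crd q (-b) d z → ∃ k : ℕ, RgV q.q ((iK z) ^ k • v)) :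
    ∃ (ρ : VF R) (g : ι → FractionRing R), RgV q.q ρ ∧ HV 𝒜 lam ρ ∧
      (∀ i, HK 𝒜 0 (χ i - lam) (g i)) ∧ v = ρ + ∑ i, g i • w i := by
  have hb0 : -b ≠ 0 := by
    intro h0
    rw [neg_eq_zero.1 h0, map_zero] at hcb
    exact lt_irrefl _ hcb
  obtain ⟨d, z, hz⟩ := exists_crd hb hb0
  obtain ⟨k, hk⟩ := hk d z hz
  refine rm_hom H q hw hv (H900.lemmaM H q hw c hz (fun ψ h1 h2 => (hoth ψ h1 h2).le) hcb ?_ hv k
    ⟨0, Submodule.zero_mem _, by rwa [sub_zero]⟩)
  intro l psi M hl hpsi hM he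
  obtain ⟨i, hi⟩ := hrel l psi M hl (hpsi.imp id fun h => h.1) hM he
  rcases hpsi with h | h
  · exact H.iso q.q q.ν q.nv q.fix (by
      have h1 := hw.pi i
      rw [← hi, h] at h1
      exact h1)
  · exact h.2 i hi

section
variable {N : ℤ} {n : ℕ} {f : Fin (n + 1) → Fin r → ℤ}
  {β : Fin (n + 1) → Fin (n + 1) → ((Fin r → ℤ) →+ ℤ)} {E F : Fin (n + 1) → Fin (n + 1) → VF R}
  {c : (Fin r → ℤ) →+ ℤ}

/-- One or two root fields are independent. -/
theorem ind_sub (hA : AC 𝒜 N n f β E F) {q : FP 𝒜} {ι : Type} (σ : ι → Fin (n + 1))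
    (hσ : Function.Injective σ) (hL : ∀ i, σ i ≠ Fin.last n)
    (hpi : ∀ i, q.Pi (f (σ i) - f (Fin.last n))) :
    Ind q (fun i => E (σ i) (Fin.last n)) fun i => f (σ i) - f (Fin.last n) where
  glob i := (hA.root _ _ (hL i)).globE
  hv i := (hA.root _ _ (hL i)).hvE
  inj i j hij := by
    have h1 : f (σ i) = f (σ j) := sub_left_injective hij
    by_contra h2
    have h3 : σ i ≠ σ j := fun h => h2 (hσ h)
    have h4 := hA.be (σ i) (σ j) (σ i) h3
    have h5 := hA.be (σ i) (σ j) (σ j) h3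
    rw [if_pos rfl, if_neg h3] at h4
    rw [if_pos rfl, if_neg h3.symm, ← h1, h4] at h5
    have := hA.N0
    omega
  pi := hpi
  ne i := (hA.root _ _ (hL i)).atE q (hpi i)

/-- The normal form of a field of weight `-f L` at a wall point. -/
theorem rm_wall (H : Hyp 𝒜) (hA : AC 𝒜 N n f β E F) (hv : NoVec 𝒜 n f) (hc : Ch2 𝒜 n f c)
    {q : FP 𝒜} {b : Fin r → ℤ} (hb : q.Pi (-b)) (hcb : 0 < c b)
    (hoth : ∀ ψ, q.Pi ψ → ψ ≠ -b → 0 < c ψ) {v : VF R} (hvv : HV 𝒜 (-f (Fin.last n)) v)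
    (hk : ∀ d z, Crd q (-b) d z → ∃ k : ℕ, RgV q.q ((iK z) ^ k • v)) :
    ∃ (ρ : VF R) (g0 g1 : FractionRing R), RgV q.q ρ ∧ HV 𝒜 (-f (Fin.last n)) ρ ∧
      HK 𝒜 0 (f 0) g0 ∧ HK 𝒜 0 (f 1) g1 ∧ (¬ q.Pi (f 0 - f (Fin.last n)) → g0 = 0) ∧
      ((¬ q.Pi (f 1 - f (Fin.last n)) ∨ b ≠ f 1) → g1 = 0) ∧
      v = ρ + g0 • E 0 (Fin.last n) + g1 • E 1 (Fin.last n) := by
  have hn := hA.n2
  have v1 := one_val hn
  have v0 : ((0 : Fin (n + 1)) : ℕ) = 0 := rfl
  have vL : ((Fin.last n : Fin (n + 1)) : ℕ) = n := rfl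
  have n01 : (0 : Fin (n + 1)) ≠ 1 := fun h => by rw [Fin.ext_iff] at h; omega
  have n0L : (0 : Fin (n + 1)) ≠ Fin.last n := fun h => by rw [Fin.ext_iff] at h; omega
  have n1L : (1 : Fin (n + 1)) ≠ Fin.last n := fun h => by rw [Fin.ext_iff] at h; omega
  have hrel := fun (l : ℕ) (psi : Fin r → ℤ) (M : List (Fin r → ℤ)) (hl : 1 ≤ l)
      (hpsi : psi = 0 ∨ q.Pi psi) (hM : ∀ ω ∈ M, q.Pi ω ∧ ω ≠ -b)
      (he : psi = -f (Fin.last n) + l • b + M.sum) =>
    rel_field H hA hv hc hb hcb hoth hl hpsi hM he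
  have hne : ∀ i : Fin (n + 1), i ≠ Fin.last n → f i - f (Fin.last n) ≠ 0 := by
    intro i hi h0
    have h1 := hA.be i (Fin.last n) i hi
    have h2 := hA.be i (Fin.last n) (Fin.last n) hi
    rw [if_pos rfl, if_neg hi] at h1
    rw [if_pos rfl, if_neg hi.symm, ← sub_eq_zero.1 h0, h1] at h2
    have := hA.N0
    omega
  have hsub : ∀ i, f i - f (Fin.last n) - -f (Fin.last n) = f i := fun i => by abel
  by_cases p0 : q.Pi (f 0 - f (Fin.last n))
  · by_cases p1 : q.Pi (f 1 - f (Fin.last n)) ∧ b = f 1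
    · obtain ⟨ρ, g, h1, h2, h3, h4⟩ := wall_gen H hb hcb hoth
        (ind_sub hA (q := q) (fun i : Bool => if i then (1 : Fin (n + 1)) else 0)
          (by rintro (_ | _) (_ | _) h <;> simp_all [n01.symm])
          (by rintro (_ | _) <;> simp [n0L, n1L])
          (by rintro (_ | _) <;> simp [p0, p1.1])) (fun l psi M hl hpsi hM he => by
            rcases (hrel l psi M hl hpsi hM he).2 with h | h | h
            · exact ⟨true, by simpa using h.2.2⟩
            · exact ⟨false, by simpa using h.2.2⟩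
            · exact ⟨false, by simpa using h.2.2⟩) hvv hk
      refine ⟨ρ, g false, g true, h1, h2, ?_, ?_, fun h => absurd p0 h, ?_, ?_⟩
      · have := h3 false
        simpa [hsub] using this
      · have := h3 true
        simpa [hsub] using this
      · rintro (h | h)
        · exact absurd p1.1 h
        · exact absurd p1.2 h
      · rw [h4, Fintype.sum_bool]
        simp only [if_true, Bool.false_eq_true, if_false]
        abel
    · obtain ⟨ρ, g, h1, h2, h3, h4⟩ := wall_gen H hb hcb hoth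
        (ind_sub hA (q := q) (fun _ : Unit => (0 : Fin (n + 1)))
          (fun _ _ _ => rfl) (fun _ => n0L) (fun _ => p0)) (fun l psi M hl hpsi hM he => by
            rcases (hrel l psi M hl hpsi hM he).2 with h | h | h
            · exfalso
              rcases hpsi with h5 | h5
              · exact hne 1 n1L (h.2.2.symm.trans h5)
              · rw [h.2.2] at h5
                exact p1 ⟨h5, h.1⟩
            · exact ⟨(), h.2.2⟩
            · exact ⟨(), h.2.2⟩) hvv hk
      refine ⟨ρ, g (), 0, h1, h2, ?_, HK.zero le_rfl, fun h => absurd p0 h, fun _ => rfl, ?_⟩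
      · have := h3 ()
        simpa [hsub] using this
      · rw [h4, zero_smul, add_zero]
        simp
  · by_cases p1 : q.Pi (f 1 - f (Fin.last n)) ∧ b = f 1
    · obtain ⟨ρ, g, h1, h2, h3, h4⟩ := wall_gen H hb hcb hoth
        (ind_sub hA (q := q) (fun _ : Unit => (1 : Fin (n + 1)))
          (fun _ _ _ => rfl) (fun _ => n1L) (fun _ => p1.1)) (fun l psi M hl hpsi hM he => by
            rcases (hrel l psi M hl hpsi hM he).2 with h | h | h
            · exact ⟨(), h.2.2⟩
            · exfalso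
              rcases hpsi with h5 | h5
              · exact hne 0 n0L (h.2.2.symm.trans h5)
              · rw [h.2.2] at h5
                exact p0 h5
            · exfalso
              rcases hpsi with h5 | h5
              · exact hne 0 n0L (h.2.2.symm.trans h5)
              · rw [h.2.2] at h5
                exact p0 h5) hvv hk
      refine ⟨ρ, 0, g (), h1, h2, HK.zero le_rfl, ?_, fun _ => rfl, ?_, ?_⟩
      · have := h3 ()
        simpa [hsub] using this
      · rintro (h | h)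
        · exact absurd p1.1 h
        · exact absurd p1.2 h
      · rw [h4, zero_smul, add_zero]
        simp
    · obtain ⟨ρ, g, h1, h2, h3, h4⟩ := wall_gen H hb hcb hoth
        (ind_sub hA (q := q) (fun i : Empty => (i.elim : Fin (n + 1)))
          (fun i => i.elim) (fun i => i.elim) (fun i => i.elim)) (fun l psi M hl hpsi hM he => by
            exfalso
            rcases (hrel l psi M hl hpsi hM he).2 with h | h | h
            · rcases hpsi with h5 | h5
              · exact hne 1 n1L (h.2.2.symm.trans h5)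
              · rw [h.2.2] at h5
                exact p1 ⟨h5, h.1⟩
            · rcases hpsi with h5 | h5
              · exact hne 0 n0L (h.2.2.symm.trans h5)
              · rw [h.2.2] at h5
                exact p0 h5
            · rcases hpsi with h5 | h5
              · exact hne 0 n0L (h.2.2.symm.trans h5)
              · rw [h.2.2] at h5
                exact p0 h5) hvv hk
      refine ⟨ρ, 0, 0, h1, h2, HK.zero le_rfl, HK.zero le_rfl, fun _ => rfl, fun _ => rfl, ?_⟩
      rw [h4]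
      simp

end

end Vale.Agent.P280.N2
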