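import Vale.Agent.P280.H490.U2

/-! P280, stage 2: the weights `lam`, `lam - a` are not both at `y` if only `lam - a` is at `y'`. -/

open DirectSum Vale.Agent.P280.T Vale.Agent.P280.H127

namespace Vale.Agent.P280.N2

open Vale.Agent.P280.N Vale.Agent.P280.H490

variable {r : ℕ} {R : Type} [CommRing R] [IsDomain R] [Algebra ℂ R]
  {𝒜 : ℕ × (Fin r → ℤ) → Submodule ℂ R} [GradedAlgebra 𝒜]

/-- The weights `lam` and `lam - a` (the latter with a global field) are not both at `y` if only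
`lam - a` is at the other end. -/
theorem two_up (H : Hyp 𝒜) {y y' : FP 𝒜} {a : Fin r → ℤ} {n : ℕ} {φ : R →ₐ[ℂ] Polynomial ℂ}
    (hφ : Curve y y' a n φ) {lam : Fin r → ℤ} (hl : ∀ k : ℤ, lam ≠ k • a) (hy : y.Pi lam)
    {w : VF R} (hw : Glob w) (hwv : HV 𝒜 (lam - a) w) (hw0 : ¬ ValV y.q w 0)
    (hk : ∀ k : ℕ, y'.Pi (lam - k • a) → k = 1) : False := by
  obtain ⟨φ', hφ', -⟩ := exists_rev H hφ
  obtain ⟨W, rfl, hW⟩ := hw.exists_hder hwv
  have hval : (∀ x, y.q (W x) = 0) → ValV y.q (toVF W) 0 := by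
    intro hz x
    rw [toVF_iK]
    have := Val.iK (q := y.q) (W x)
    rwa [hz] at this
  obtain ⟨t, ht, htw, htne⟩ := hy
  obtain ⟨δ, hδ, hdeg, htop⟩ := exists_lift H hφ' ht htw
  have hl' : ∀ k : ℤ, lam ≠ k • -a := fun k hk => hl (-k) (by rw [hk, neg_smul, smul_neg])
  have hdrW : Dr 𝒜 y' (-a) (lam + -a) φ' (φ'.toLinearMap.comp (W : R →ₗ[ℂ] R)) :=
    dr_of_field hφ' (by rwa [← sub_eq_add_neg])
  have hdr1 := hdrW.mulX
  have hXW : ∀ x, ((LinearMap.mulLeft ℂ (Polynomial.X : Polynomial ℂ)).comp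
      (φ'.toLinearMap.comp (W : R →ₗ[ℂ] R))) x = Polynomial.X * φ' (W x) := fun x => rfl
  -- `w` is not zero along the curve
  have hne : ∃ x, φ' (W x) ≠ 0 := by
    by_contra hcon
    push Not at hcon
    apply hw0
    apply hval
    have h2 : y.q.toLinearMap.comp (W : R →ₗ[ℂ] R) = 0 := by
      apply linearMap_ext_graded 𝒜
      rintro ⟨d, m⟩ h hh
      change y.q (W h) = 0
      rw [← hφ'.ev' d _ _ (hW d m h hh), hcon, Polynomial.coeff_zero]
    exact fun x => LinearMap.congr_fun h2 x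
  obtain ⟨c, hc⟩ := der_unique H hφ' hl' (k0 := 1)
    (fun k hk' => hk k (by rwa [smul_neg, ← sub_eq_add_neg] at hk')) hδ hdr1.1
    (fun d m h hh hne => by
      obtain ⟨i, -, hi, hc⟩ := hdeg d m h hh hne
      exact ⟨i, hi, hc⟩) hdr1.2 (by
      obtain ⟨x, hx⟩ := hne
      exact ⟨x, by rw [hXW]; exact mul_ne_zero Polynomial.X_ne_zero hx⟩)
  have hc' : ∀ x, δ x = Polynomial.C c * (Polynomial.X * φ' (W x)) := fun x => by
    rw [hc, hXW]
  have hc0 : c = 0 := by
    by_contra hc0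
    apply hw0
    apply hval
    have h2 : y.q.toLinearMap.comp (W : R →ₗ[ℂ] R) = 0 := by
      apply linearMap_ext_graded 𝒜
      rintro ⟨d, m⟩ h hh
      change y.q (W h) = 0
      rw [← hφ'.ev' d _ _ (hW d m h hh)]
      have h3 := congrArg (fun p => Polynomial.coeff p (d * n + 1)) (hc' h)
      simp only [Polynomial.coeff_C_mul] at h3
      rw [Polynomial.coeff_X_mul] at h3
      have h4 : (δ h).coeff (d * n + 1) = 0 := by
        by_cases hδh : δ h = 0
        · rw [hδh, Polynomial.coeff_zero]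
        · obtain ⟨i, hi, -, e, he⟩ := hdeg d m h hh hδh
          rw [he, Polynomial.coeff_C_mul_X_pow, if_neg (by omega)]
      rw [h4] at h3
      exact (mul_eq_zero.1 h3.symm).resolve_left hc0
    exact fun x => LinearMap.congr_fun h2 x
  obtain ⟨d, m, h, hh, hne'⟩ := htne 0
  apply hne'
  rw [← htop d m h hh, hc', hc0, Polynomial.C_0, zero_mul, Polynomial.coeff_zero, zero_mul,
    zero_mul]

end Vale.Agent.P280.N2
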