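import Vale.Agent.P280.N2.Defs
import Vale.Agent.P280.N2.TwoUp
import Vale.Agent.P280.H495.U2

/-! P280, stage 2, block U: transport along the curves. -/

open DirectSum Vale.Agent.P280.T Vale.Agent.P280.H127

namespace Vale.Agent.P280.N2

open Vale.Agent.P280.N

variable {r : ℕ} {R : Type} [CommRing R] [IsDomain R] [Algebra ℂ R]
  {𝒜 : ℕ × (Fin r → ℤ) → Submodule ℂ R} [GradedAlgebra 𝒜]

/-- A global field which is not zero at one end is not zero along the curve. -/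
theorem nz_of_val {y y' : FP 𝒜} {a : Fin r → ℤ} {n : ℕ} {φ : R →ₐ[ℂ] Polynomial ℂ}
    (hφ : Curve y y' a n φ) {lam : Fin r → ℤ} {D : VF R} (hD : Glob D) (hDv : HV 𝒜 lam D)
    (h : ¬ ValV y.q D 0 ∨ ¬ ValV y'.q D 0) : NZ φ D :=
  H495.ne_of_end hφ hD hDv h

/-- Lemma (U), value at `y'`. -/
theorem curve_u_end (H : Hyp 𝒜) {y y' : FP 𝒜} {a : Fin r → ℤ} {n : ℕ}
    {φ : R →ₐ[ℂ] Polynomial ℂ} (hφ : Curve y y' a n φ) {lam : Fin r → ℤ} {D : VF R}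
    (hD : Glob D) (hDv : HV 𝒜 lam D) (hl : ∀ k : ℤ, lam ≠ k • a) (hpi : y'.Pi lam) {k0 : ℕ}
    (hk : ∀ k : ℕ, y.Pi (lam + k • a) → k = k0) (hne : NZ φ D) : ¬ ValV y'.q D 0 :=
  H490.curve_u H hφ hD hDv hl hpi hk hne

/-- Lemma (U), value at `y`. -/
theorem curve_u (H : Hyp 𝒜) {y y' : FP 𝒜} {a : Fin r → ℤ} {n : ℕ}
    {φ : R →ₐ[ℂ] Polynomial ℂ} (hφ : Curve y y' a n φ) {lam : Fin r → ℤ} {D : VF R}
    (hD : Glob D) (hDv : HV 𝒜 lam D) (hl : ∀ k : ℤ, lam ≠ k • a) (hpi : y.Pi lam) {k0 : ℕ}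
    (hk : ∀ k : ℕ, y'.Pi (lam - k • a) → k = k0) (hne : NZ φ D) : ¬ ValV y.q D 0 :=
  H490.curve_u' H hφ hD hDv hl hpi hk hne

/-- Lemma (U2). -/
theorem curve_u2 (H : Hyp 𝒜) {y y' : FP 𝒜} {a : Fin r → ℤ} {n : ℕ}
    {φ : R →ₐ[ℂ] Polynomial ℂ} (hφ : Curve y y' a n φ) {lam : Fin r → ℤ} {D w : VF R}
    (hD : Glob D) (hDv : HV 𝒜 lam D) (hl : ∀ k : ℤ, lam ≠ k • a) (hpi : y.Pi lam)
    (hk : ∀ k : ℕ, y'.Pi (lam - k • a) → k = 0 ∨ k = 1) (hw : Glob w) (hwv : HV 𝒜 (lam - a) w)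
    (hw0 : ¬ ValV y.q w 0) (hw1 : ¬ ValV y'.q w 0) (hD1 : ¬ ValV y'.q D 0) :
    ¬ ValV y.q D 0 :=
  H490.curve_u2 H hφ hD hDv hl hpi hk hw hwv hw0 hw1 hD1

end Vale.Agent.P280.N2
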