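import Vale.Agent.P280.N2.Defs
import Vale.Agent.P280.N.C03

/-! P280, stage 2, block M: the lists of weights. -/

open DirectSum Vale.Agent.P280.T Vale.Agent.P280.H127 Vale.Agent.P280.N

namespace Vale.Agent.P280.N2

variable {r : ℕ} {R : Type} [CommRing R] [IsDomain R] [Algebra ℂ R]
  {𝒜 : ℕ × (Fin r → ℤ) → Submodule ℂ R} [GradedAlgebra 𝒜]
variable {N : ℤ} {n : ℕ} {f : Fin (n + 1) → Fin r → ℤ}
  {β : Fin (n + 1) → Fin (n + 1) → ((Fin r → ℤ) →+ ℤ)} {E F : Fin (n + 1) → Fin (n + 1) → VF R}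

omit [GradedAlgebra 𝒜] in
theorem ac_be_sum (hA : H989.AC 𝒜 N n f β E F) (x : Fin (n + 1) → ℤ) {i j : Fin (n + 1)}
    (hij : i ≠ j) : β i j (∑ k, x k • f k) = N * (x i - x j) := by
  rw [map_sum]
  simp only [map_zsmul, hA.be i j _ hij, smul_eq_mul, mul_sub, Finset.sum_sub_distrib, mul_ite,
    mul_zero, Finset.sum_ite_eq', Finset.mem_univ, if_true]
  ring

omit [GradedAlgebra 𝒜] in
/-- The weights of the component are combinations of the letters. -/
theorem ac_coords (hA : H989.AC 𝒜 N n f β E F) {μ : Fin r → ℤ} (hμ : Wt 𝒜 μ) (hn : ¬ Nul β μ) :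
    ∃ x : Fin (n + 1) → ℤ, μ = ∑ k, x k • f k := by
  have h1 : ∀ i : Fin (n + 1), ∑ k, (if k = i then (1 : ℤ) else 0) • f k = f i := by
    intro i
    simp only [ite_smul, one_smul, zero_smul, Finset.sum_ite_eq', Finset.mem_univ, if_true]
  rcases hA.S μ hμ with h | ⟨i, j, -, h⟩ | ⟨i, h | h⟩ | ⟨-, i, j, -, h⟩
  · exact absurd h hn
  · refine ⟨fun k => (if k = i then (1 : ℤ) else 0) - (if k = j then (1 : ℤ) else 0), ?_⟩
    simp only [sub_smul, Finset.sum_sub_distrib, h1]
    exact h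
  · exact ⟨fun k => if k = i then (1 : ℤ) else 0, by rw [h1]; exact h⟩
  · refine ⟨fun k => -(if k = i then (1 : ℤ) else 0), ?_⟩
    simp only [neg_smul, Finset.sum_neg_distrib, h1]
    exact h
  · refine ⟨fun k => (if k = i then (1 : ℤ) else 0) + (if k = j then (1 : ℤ) else 0), ?_⟩
    simp only [add_smul, Finset.sum_add_distrib, h1]
    exact h

omit [GradedAlgebra 𝒜] in
/-- A weight of the component is determined by the values of the functionals. -/
theorem ac_prof (hA : H989.AC 𝒜 N n f β E F) {μ μ' : Fin r → ℤ} (hμ : Wt 𝒜 μ) (hμ' : Wt 𝒜 μ')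
    (hn : ¬ Nul β μ) (h : ∀ i j, i ≠ j → β i j μ = β i j μ') : μ = μ' := by
  have hn' : ¬ Nul β μ' := fun h0 => hn fun i j hij => by rw [h i j hij, h0 i j hij]
  obtain ⟨x, rfl⟩ := ac_coords hA hμ hn
  obtain ⟨x', rfl⟩ := ac_coords hA hμ' hn'
  have h1 : ∀ k, x k - x' k = x 0 - x' 0 := by
    intro k
    by_cases hk : k = 0
    · rw [hk]
    · have h2 := h k 0 hk
      rw [ac_be_sum hA x hk, ac_be_sum hA x' hk] at h2
      have h3 := mul_left_cancel₀ hA.N0.ne' h2
      linarith
  rw [← sub_eq_zero, ← Finset.sum_sub_distrib]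
  simp only [← sub_smul, h1]
  rw [← Finset.smul_sum, hA.sum, smul_zero]

omit [GradedAlgebra 𝒜] in
theorem ac_le2 (hA : H989.AC 𝒜 N n f β E F) {μ : Fin r → ℤ} (hμ : Wt 𝒜 μ) {i j : Fin (n + 1)}
    (hij : i ≠ j) : β i j μ ≤ 2 * N := by
  have hN := hA.N0
  by_cases h1 : μ = f i - f j
  · rw [h1, (hA.root i j hij).two]
  · by_cases h2 : μ = -(f i - f j)
    · rw [h2, map_neg, (hA.root i j hij).two]
      omega
    · have h3 := abs_le.1 ((hA.root i j hij).bd μ hμ h1 h2)
      omega

omit [GradedAlgebra 𝒜] in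
theorem ac_eq_of_two (hA : H989.AC 𝒜 N n f β E F) {μ : Fin r → ℤ} (hμ : Wt 𝒜 μ)
    {i j : Fin (n + 1)} (hij : i ≠ j) (h : β i j μ = 2 * N) : μ = f i - f j := by
  have hN := hA.N0
  by_contra h1
  by_cases h2 : μ = -(f i - f j)
  · rw [h2, map_neg, (hA.root i j hij).two] at h
    omega
  · have h3 := abs_le.1 ((hA.root i j hij).bd μ hμ h1 h2)
    omega

omit [GradedAlgebra 𝒜] in
theorem ac_f_ne (hA : H989.AC 𝒜 N n f β E F) {i j : Fin (n + 1)} (hij : i ≠ j) : f i ≠ f j := by
  have hN := hA.N0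
  intro h
  have h1 := hA.be i j i hij
  rw [h, hA.be i j j hij, if_pos rfl, if_pos rfl, if_neg hij.symm, if_neg hij] at h1
  omega

omit [GradedAlgebra 𝒜] in
/-- Null weights do not mix with the others. -/
theorem ac_null (hA : H989.AC 𝒜 N n f β E F) {μ b : Fin r → ℤ} (hμ : Wt 𝒜 μ)
    (hn : ¬ Nul β μ) (hb : Nul β b) (hb0 : b ≠ 0) {k : ℤ} (hk : Wt 𝒜 (μ + k • b)) : k = 0 := by
  have h1 : μ = μ + k • b := by
    refine ac_prof hA hμ hk hn fun i j hij => ?_
    rw [map_add, map_zsmul, hb i j hij, smul_zero, add_zero]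
  exact (smul_eq_zero.1 (left_eq_add.1 h1)).resolve_right hb0

omit [GradedAlgebra 𝒜] in
/-- The sum of two negative letters is not a weight. -/
theorem not_wt_neg_add (hA : H989.AC 𝒜 N n f β E F) (hv : NoVec 𝒜 n f) (hn : 3 ≤ n)
    {i j : Fin (n + 1)} (hij : i ≠ j) : ¬ Wt 𝒜 (-f i - f j) := by
  have hN := hA.N0
  intro hw
  have hb : ∀ p q, p ≠ q → β p q (-f i - f j) = -((if i = p then N else 0) -
      (if i = q then N else 0)) - ((if j = p then N else 0) - (if j = q then N else 0)) := by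
    intro p q hpq
    rw [map_sub, map_neg, hA.be p q i hpq, hA.be p q j hpq]
  have hex : ∀ p : Fin (n + 1), ∃ q, q ≠ i ∧ q ≠ j ∧ q ≠ p := by
    intro p
    by_contra hcon
    push Not at hcon
    have h1 : (Finset.univ : Finset (Fin (n + 1))) ⊆ {i, j, p} := by
      intro q _
      rw [Finset.mem_insert, Finset.mem_insert, Finset.mem_singleton]
      by_cases h1 : q = i
      · exact Or.inl h1
      · by_cases h2 : q = j
        · exact Or.inr (Or.inl h2)
        · exact Or.inr (Or.inr (hcon q h1 h2))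
    have h2 := Finset.card_le_card h1
    have h3 : ({i, j, p} : Finset (Fin (n + 1))).card ≤ 3 := Finset.card_le_three
    rw [Finset.card_univ, Fintype.card_fin] at h2
    omega
  rcases hA.S _ hw with h | ⟨p, q, hpq, h⟩ | ⟨p, h | h⟩ | ⟨h3, p, q, hpq, h⟩
  · obtain ⟨q, h1, h2, -⟩ := hex i
    have h4 := h q i h1
    rw [hb q i h1, if_neg h1.symm, if_pos rfl, if_neg h2.symm, if_neg hij.symm] at h4
    omega
  · have h4 := congrArg (β p q) h
    rw [hb p q hpq, (hA.root p q hpq).two] at h4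
    by_cases h5 : i = q
    · have h6 : j ≠ q := fun h6 => hij (h5.trans h6.symm)
      rw [if_neg h6] at h4
      split_ifs at h4 <;> omega
    · rw [if_neg h5] at h4
      split_ifs at h4 <;> omega
  · obtain ⟨q, h1, h2, h5⟩ := hex p
    have h4 := congrArg (β p q) h
    rw [hb p q h5.symm, hA.be p q p h5.symm, if_neg h1.symm, if_neg h2.symm, if_pos rfl,
      if_neg h5.symm] at h4
    split_ifs at h4 <;> omega
  · by_cases hpi : p = i
    · subst hpi
      have h4 := congrArg (β p j) h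
      rw [hb p j hij, map_neg, hA.be p j p hij] at h4
      simp only [if_true, if_neg hij, if_neg hij.symm] at h4
      omega
    · by_cases hpj : p = j
      · subst hpj
        have h4 := congrArg (β p i) h
        rw [hb p i hij.symm, map_neg, hA.be p i p hij.symm] at h4
        simp only [if_true, if_neg hij, if_neg hij.symm] at h4
        omega
      · obtain ⟨q, h1, h2, h5⟩ := hex p
        have h4 := congrArg (β p q) h
        rw [hb p q h5.symm, map_neg, hA.be p q p h5.symm, if_neg h1.symm, if_neg h2.symm,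
          if_pos rfl, if_neg h5.symm, if_neg (fun h => hpi h.symm),
          if_neg (fun h => hpj h.symm)] at h4
        omega
  · exact hv h3 p q hpq (h ▸ hw)

omit [GradedAlgebra 𝒜] in
/-- `-f i - k f j` is not a weight for `k ≥ 1`. -/
theorem not_wt_neg_smul (hA : H989.AC 𝒜 N n f β E F) (hv : NoVec 𝒜 n f) (hn : 3 ≤ n)
    {i j : Fin (n + 1)} (hij : i ≠ j) {k : ℕ} (hw : Wt 𝒜 (-f i - k • f j)) : k = 0 := by
  have hN := hA.N0
  have hex : ∃ p q : Fin (n + 1), p ≠ q ∧ p ≠ i ∧ p ≠ j ∧ q ≠ i ∧ q ≠ j := by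
    have h1 : 1 < ((Finset.univ : Finset (Fin (n + 1))) \ {i, j}).card := by
      have h2 := Finset.le_card_sdiff ({i, j} : Finset (Fin (n + 1))) Finset.univ
      have h3 : ({i, j} : Finset (Fin (n + 1))).card ≤ 2 := Finset.card_le_two
      rw [Finset.card_univ, Fintype.card_fin] at h2
      omega
    obtain ⟨p, hp, q, hq, hpq⟩ := Finset.one_lt_card.1 h1
    simp only [Finset.mem_sdiff, Finset.mem_univ, true_and, Finset.mem_insert,
      Finset.mem_singleton, not_or] at hp hq
    exact ⟨p, q, hpq, hp.1, hp.2, hq.1, hq.2⟩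
  obtain ⟨p, q, hpq, hpi, hpj, hqi, hqj⟩ := hex
  have hb : ∀ p, p ≠ i → p ≠ j → β p j (-f i - k • f j) = k * N := by
    intro p h1 h2
    rw [map_sub, map_neg, map_nsmul, hA.be p j i h2, hA.be p j j h2, if_neg h1.symm, if_neg hij,
      if_pos rfl, if_neg h2.symm, nsmul_eq_mul]
    ring
  have h1 := ac_le2 hA hw hpj
  rw [hb p hpi hpj] at h1
  have h2 : (k : ℤ) ≤ 2 := by nlinarith
  have h3 : k = 0 ∨ k = 1 ∨ k = 2 := by omega
  rcases h3 with rfl | rfl | rfl
  · rfl
  · rw [one_smul] at hw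
    exact absurd hw (not_wt_neg_add hA hv hn hij)
  · exfalso
    have h4 := ac_eq_of_two hA hw hpj (by rw [hb p hpi hpj]; rfl)
    have h5 := ac_eq_of_two hA hw hqj (by rw [hb q hqi hqj]; rfl)
    exact ac_f_ne hA hpq (sub_left_injective (h4.symm.trans h5))

/-- The multiples of a negative weight which can be subtracted from `-f L`. -/
theorem lam_sub (H : Hyp 𝒜) (hA : H989.AC 𝒜 N n f β E F) (hv : NoVec 𝒜 n f)
    {c : (Fin r → ℤ) →+ ℤ} (hc : Ch2 𝒜 n f c) {a : Fin r → ℤ} (ha : Wt 𝒜 a) (hca : c a < 0)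
    {k : ℕ} (hk : Wt 𝒜 (-f (Fin.last n) - k • a)) :
    k = 0 ∨ (k = 1 ∧ (a = -f 0 ∨ a = -f 1)) := by
  have hN := hA.N0
  have hn2 := hA.n2
  have h01 : (0 : Fin (n + 1)) ≠ 1 := by
    intro h
    have := congrArg Fin.val h
    rw [Fin.val_one', Nat.mod_eq_of_lt (by omega)] at this
    simp at this
  have hv0 : ((0 : Fin (n + 1)) : ℕ) = 0 := rfl
  have hv1 : ((1 : Fin (n + 1)) : ℕ) = 1 := by rw [Fin.val_one', Nat.mod_eq_of_lt (by omega)]
  have hvL : ((Fin.last n : Fin (n + 1)) : ℕ) = n := rfl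
  have h0L : (0 : Fin (n + 1)) ≠ Fin.last n := by
    intro h
    have := congrArg Fin.val h
    omega
  have h1L : (1 : Fin (n + 1)) ≠ Fin.last n := by
    intro h
    have := congrArg Fin.val h
    omega
  have hLwt : Wt 𝒜 (-f (Fin.last n)) := hA.wtn _
  have hLnn : ¬ Nul β (-f (Fin.last n)) := by
    intro h
    have h1 := h 0 (Fin.last n) h0L
    rw [map_neg, hA.be _ _ _ h0L, if_neg h0L.symm, if_pos rfl] at h1
    omega
  rcases Nat.eq_zero_or_pos k with hk0 | hk0
  · exact Or.inl hk0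
  have hk1 : (1 : ℤ) ≤ k := by exact_mod_cast hk0
  rcases hA.S a ha with h | ⟨i, j, hij, h⟩ | ⟨i, h | h⟩ | ⟨h3, i, j, hij, h⟩
  · left
    have h1 : (-(k : ℤ)) = 0 := ac_null hA hLwt hLnn h (c03_wt_ne_zero H ha) (k := -(k : ℤ))
      (by rw [neg_smul, natCast_zsmul, ← sub_eq_add_neg]; exact hk)
    omega
  · exfalso
    have hji : j < i := by
      rcases lt_trichotomy i j with h1 | h1 | h1
      · have := hc.ord i j h1
        rw [h, map_sub] at hca
        omega
      · exact absurd h1 hij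
      · exact h1
    have hjL : j ≠ Fin.last n := fun h1 => absurd hji (not_lt.2 (h1 ▸ Fin.le_last i))
    have h1 : β j i (-f (Fin.last n) - k • a) =
        (if Fin.last n = i then N else 0) + k * (2 * N) := by
      rw [map_sub, map_neg, map_nsmul, h, map_sub, hA.be j i _ hij.symm, hA.be j i i hij.symm,
        hA.be j i j hij.symm, if_neg hjL.symm, if_neg hij, if_pos rfl, if_pos rfl,
        if_neg hij.symm, nsmul_eq_mul]
      ring
    have h2 := ac_le2 hA hk hij.symm
    rw [h1] at h2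
    by_cases hiL : Fin.last n = i
    · rw [if_pos hiL] at h2
      nlinarith
    · rw [if_neg hiL, zero_add] at h2 h1
      have h4 : (k : ℤ) ≤ 1 := by nlinarith
      have h5 : k = 1 := by omega
      subst h5
      have h6 := ac_eq_of_two hA hk hij.symm (by rw [h1]; push_cast; ring)
      rw [h, one_smul] at h6
      have h7 : f (Fin.last n) = 0 := by
        have h8 : f (Fin.last n) = -(f i - f j) - (f j - f i) := by rw [← h6]; abel
        rw [h8]; abel
      exact c03_wt_ne_zero H (hA.wt _) h7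
  · exfalso
    have hi2 : 2 ≤ (i : ℕ) := by
      by_contra hlt
      have h1 : i = 0 ∨ i = 1 := by
        have h2 : (i : ℕ) = 0 ∨ (i : ℕ) = 1 := by omega
        rcases h2 with h2 | h2
        · exact Or.inl (Fin.ext h2)
        · exact Or.inr (Fin.ext (h2.trans hv1.symm))
      have h2 := hc.pos
      have h3 := hc.ord 0 1 (by rw [Fin.lt_def]; omega)
      rcases h1 with rfl | rfl
      · rw [h] at hca; omega
      · rw [h] at hca; omega
    subst h
    have h0i : (0 : Fin (n + 1)) ≠ i := fun h => by rw [← h] at hi2; omega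
    have h1i : (1 : Fin (n + 1)) ≠ i := fun h => by rw [← h] at hi2; omega
    by_cases hiL : Fin.last n = i
    · subst hiL
      have hb : ∀ p, p ≠ Fin.last n →
          β p (Fin.last n) (-f (Fin.last n) - k • f (Fin.last n)) = (1 + k) * N := by
        intro p hp
        rw [map_sub, map_neg, map_nsmul, hA.be p _ _ hp, if_pos rfl, if_neg hp.symm, nsmul_eq_mul]
        ring
      have h1 := ac_le2 hA hk h0i
      rw [hb _ h0i] at h1
      have h2 : (k : ℤ) ≤ 1 := by nlinarith
      have h3 : k = 1 := by omega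
      subst h3
      have h4 := ac_eq_of_two hA hk h0i (by rw [hb _ h0i]; rfl)
      have h5 := ac_eq_of_two hA hk h1i (by rw [hb _ h1i]; rfl)
      exact ac_f_ne hA h01 (sub_left_injective (h4.symm.trans h5))
    · have hn3 : 3 ≤ n := by
        have h1 : (i : ℕ) ≠ n := fun h => hiL (Fin.ext (hvL.trans h.symm))
        have h2 := i.2
        omega
      have := not_wt_neg_smul hA hv hn3 hiL hk
      omega
  · have hi : i = 0 ∨ i = 1 := by
      have h2 : (i : ℕ) = 0 ∨ (i : ℕ) = 1 := by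
        by_contra hcon
        have h3 := hc.neg i (by omega)
        rw [h, map_neg] at hca
        omega
      rcases h2 with h2 | h2
      · exact Or.inl (Fin.ext h2)
      · exact Or.inr (Fin.ext (h2.trans hv1.symm))
    have hiL : i ≠ Fin.last n := by
      rcases hi with rfl | rfl
      · exact h0L
      · exact h1L
    right
    refine ⟨?_, ?_⟩
    · have h1 := ac_le2 hA hk hiL
      rw [h, map_sub, map_neg, map_nsmul, map_neg, hA.be i _ _ hiL, hA.be i _ _ hiL,
        if_neg hiL.symm, if_pos rfl, if_pos rfl, if_neg hiL, nsmul_eq_mul] at h1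
      have h2 : (k : ℤ) ≤ 1 := by nlinarith
      omega
    · rcases hi with rfl | rfl
      · exact Or.inl h
      · exact Or.inr h
  · exact absurd (h ▸ ha) (hv h3 i j hij)

omit [GradedAlgebra 𝒜] in
/-- Nothing can be added to `-f L` in the direction of a short root. -/
theorem lam_add (hA : H989.AC 𝒜 N n f β E F) (hv : NoVec 𝒜 n f) (hn : 3 ≤ n)
    {i : Fin (n + 1)} (hi : i ≠ Fin.last n) {k : ℕ}
    (hk : Wt 𝒜 (-f (Fin.last n) + k • (-f i))) : k = 0 := by
  rw [smul_neg, ← sub_eq_add_neg] at hk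
  exact not_wt_neg_smul hA hv hn hi.symm hk

omit [GradedAlgebra 𝒜] in
/-- For `n = 2`: the multiples of `-f i` which can be added to `-f 2`. -/
theorem lam_add2 {f : Fin (2 + 1) → Fin r → ℤ}
    {β : Fin (2 + 1) → Fin (2 + 1) → ((Fin r → ℤ) →+ ℤ)} {E F : Fin (2 + 1) → Fin (2 + 1) → VF R}
    (hA : H989.AC 𝒜 N 2 f β E F) {i j : Fin (2 + 1)} (hij : i ≠ j) (hi : i ≠ Fin.last 2)
    (hj : j ≠ Fin.last 2) {k : ℕ} (hk : Wt 𝒜 (-f (Fin.last 2) + k • (-f i))) :
    k = 0 ∨ (k = 1 ∧ -f (Fin.last 2) + k • (-f i) = f j) ∨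
      (k = 2 ∧ -f (Fin.last 2) + k • (-f i) = f j - f i) := by
  have hN := hA.N0
  have hs : f (Fin.last 2) + f i + f j = 0 := by
    have h1 := hA.sum
    rw [Fin.sum_univ_three] at h1
    rw [← h1]
    change f 2 + f i + f j = _
    change i ≠ 2 at hi
    change j ≠ 2 at hj
    fin_cases i <;> fin_cases j
    · exact absurd rfl hij
    · change f 2 + f 0 + f 1 = f 0 + f 1 + f 2
      abel
    · exact absurd rfl hj
    · change f 2 + f 1 + f 0 = f 0 + f 1 + f 2
      abel
    · exact absurd rfl hij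
    · exact absurd rfl hj
    · exact absurd rfl hi
    · exact absurd rfl hi
    · exact absurd rfl hi
  have h1 := ac_le2 hA hk hij.symm
  rw [map_add, map_neg, map_nsmul, map_neg, hA.be j i _ hij.symm, hA.be j i _ hij.symm,
    if_neg hj.symm, if_neg hi.symm, if_neg hij, if_pos rfl, nsmul_eq_mul] at h1
  have h2 : (k : ℤ) ≤ 2 := by nlinarith
  have h3 : k = 0 ∨ k = 1 ∨ k = 2 := by omega
  have h4 : f j = -f (Fin.last 2) - f i := by
    rw [← sub_eq_zero, ← hs]
    abel
  rcases h3 with rfl | rfl | rfl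
  · exact Or.inl rfl
  · refine Or.inr (Or.inl ⟨rfl, ?_⟩)
    rw [h4, one_smul]
    abel
  · refine Or.inr (Or.inr ⟨rfl, ?_⟩)
    rw [h4, two_smul]
    abel

omit [IsDomain R] in
/-- Two different weights at a point are not multiples of each other. -/
theorem ne_smul (H : Hyp 𝒜) {z : FP 𝒜} {lam a : Fin r → ℤ} (hl : z.Pi lam) (ha : z.Pi a)
    (hne : lam ≠ a) (k : ℤ) : lam ≠ k • a := by
  intro h
  by_cases hk : k = 0
  · subst hk
    rw [zero_smul] at h
    exact H170.ne_zero_of_pi H hl h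
  · exact hne (H.ind z.q z.ν lam a z.nv z.fix hl ha ⟨1, k, one_ne_zero, hk, by rw [one_smul, h]⟩)

end Vale.Agent.P280.N2
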