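import Vale.Agent.P280.N2.Defs
import Vale.Agent.P280.H989.Chamber

/-! P280, plan N, stage 2: a functional in chamber 2 of a component. -/

open DirectSum Vale.Agent.P280.T Vale.Agent.P280.H127
namespace Vale.Agent.P280.N2
open Vale.Agent.P280.N Vale.Agent.P280.N.H989

variable {r : ℕ} {R : Type} [CommRing R] [IsDomain R] [Algebra ℂ R]
  {𝒜 : ℕ × (Fin r → ℤ) → Submodule ℂ R} [GradedAlgebra 𝒜]
variable {N : ℤ} {n : ℕ} {f : Fin (n + 1) → Fin r → ℤ}
  {β : Fin (n + 1) → Fin (n + 1) → ((Fin r → ℤ) →+ ℤ)} {E F : Fin (n + 1) → Fin (n + 1) → VF R}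

/-- The functional with prescribed values on the letters. -/
noncomputable def gT (β : Fin (n + 1) → Fin (n + 1) → ((Fin r → ℤ) →+ ℤ)) (T : Fin (n + 1) → ℤ) :
    (Fin r → ℤ) →+ ℤ :=
  ∑ i, ∑ j, if i = j then 0 else T i • β i j

omit [GradedAlgebra 𝒜] in
theorem gT_f (hA : AC 𝒜 N n f β E F) (T : Fin (n + 1) → ℤ) (k : Fin (n + 1)) :
    gT β T (f k) = (((n : ℤ) + 1) * T k - ∑ i, T i) * N := by
  have h1 : ∀ i j : Fin (n + 1), (if i = j then (0 : (Fin r → ℤ) →+ ℤ) else T i • β i j) (f k) =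
      (if k = i then T i * N else 0) - (if k = j then T i * N else 0) := by
    intro i j
    by_cases hij : i = j
    · subst hij
      rw [if_pos rfl, AddMonoidHom.zero_apply, sub_self]
    · rw [if_neg hij, AddMonoidHom.zsmul_apply, hA.be i j k hij, smul_eq_mul, mul_sub, mul_ite,
        mul_ite, mul_zero]
  rw [gT, AddMonoidHom.finsetSum_apply]
  simp only [AddMonoidHom.finsetSum_apply, h1, Finset.sum_sub_distrib, Finset.sum_const,
    Finset.card_univ, Fintype.card_fin, Finset.sum_ite_eq, Finset.mem_univ, if_true]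
  rw [← Finset.sum_mul, ← Finset.smul_sum, Finset.sum_ite_eq, if_pos (Finset.mem_univ _),
    nsmul_eq_mul]
  push_cast
  ring

theorem exists_Ch2 (H : Hyp 𝒜) (hA : AC 𝒜 N n f β E F) : ∃ c, Ch2 𝒜 n f c := by
  have hN := hA.N0
  have hn := hA.n2
  -- the values
  set M : ℤ := ((n : ℤ) + 2) ^ 2 with hM
  have hMn : (n : ℤ) + 4 ≤ M := by rw [hM]; nlinarith
  set T : Fin (n + 1) → ℤ := fun i => if (i : ℕ) < 2 then 2 * M * (n + 1) - i else -i with hT
  have hTord : ∀ i j : Fin (n + 1), i < j → T j < T i := by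
    intro i j hij
    have h1 : (i : ℕ) < j := hij
    have h2 : (j : ℕ) < n + 1 := j.2
    simp only [hT]
    split_ifs with h3 h4 h4
    · omega
    · omega
    · nlinarith
    · omega
  have hTsum : ∑ i, T i = 4 * M * (n + 1) - ∑ i : Fin (n + 1), ((i : ℕ) : ℤ) := by
    have h1 : ∀ i : Fin (n + 1), T i =
        (if (i : ℕ) < 2 then 2 * M * ((n : ℤ) + 1) else 0) - ((i : ℕ) : ℤ) := by
      intro i
      simp only [hT]
      split_ifs <;> ring
    rw [Finset.sum_congr rfl fun i _ => h1 i, Finset.sum_sub_distrib, ← Finset.sum_filter,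
      Finset.sum_const, Fin.card_filter_val_lt, nsmul_eq_mul]
    have h2 : min (n + 1) 2 = 2 := by omega
    rw [h2]
    push_cast
    ring
  have hS0 : (0 : ℤ) ≤ ∑ i : Fin (n + 1), ((i : ℕ) : ℤ) :=
    Finset.sum_nonneg fun i _ => by positivity
  have hS1 : ∑ i : Fin (n + 1), ((i : ℕ) : ℤ) ≤ (n + 1) * n := by
    have h1 : ∀ i ∈ (Finset.univ : Finset (Fin (n + 1))), ((i : ℕ) : ℤ) ≤ n := fun i _ => by
      have := i.2
      omega
    have h2 := Finset.sum_le_card_nsmul _ _ _ h1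
    rw [Finset.card_univ, Fintype.card_fin, nsmul_eq_mul] at h2
    push_cast at h2
    exact h2
  obtain ⟨c, hc0, hc⟩ : ∃ c : (Fin r → ℤ) →+ ℤ, (∀ μ, Wt 𝒜 μ → c μ ≠ 0) ∧ True := by
    obtain ⟨c, hc⟩ := H587.exists_generic (S := {ω | Wt 𝒜 ω} ∪ {0})
      ((C07.wt_finite H).union (Set.finite_singleton 0))
    refine ⟨c, fun μ hμ h0 => c03_wt_ne_zero H hμ (hc (Or.inl hμ) (Or.inr rfl) ?_), trivial⟩
    rw [h0, map_zero]
  obtain ⟨L, hL0, hL⟩ := C07.wt_bound H c
  have hval : ∀ μ, ((L + 1) • gT β T + c) μ = (L + 1) * gT β T μ + c μ := fun μ => by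
    rw [AddMonoidHom.add_apply, AddMonoidHom.zsmul_apply, smul_eq_mul]
  have hn1 : ((1 : Fin (n + 1)) : ℕ) = 1 := by
    rw [Fin.val_one']
    exact Nat.mod_eq_of_lt (by omega)
  refine ⟨(L + 1) • gT β T + c, fun μ hμ => ?_, fun i j hij => ?_, ?_, fun j hj => ?_⟩
  · rw [hval]
    have h3 := hc0 μ hμ
    have h4 := abs_le.1 (hL μ hμ)
    rcases lt_trichotomy (gT β T μ) 0 with h5 | h5 | h5
    · nlinarith [h4.1, h4.2]
    · rw [h5, mul_zero, zero_add]
      exact h3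
    · nlinarith [h4.1, h4.2]
  · rw [hval, hval, gT_f hA, gT_f hA]
    have h3 := abs_le.1 (hL _ (hA.vx i j hij.ne).1)
    rw [map_sub] at h3
    have h4 := hTord i j hij
    have h5 : 1 ≤ (((n : ℤ) + 1) * (T i - T j)) * N := by
      have : 0 < (((n : ℤ) + 1) * (T i - T j)) * N :=
        mul_pos (mul_pos (by positivity) (by omega)) hN
      omega
    nlinarith [h3.1, h3.2]
  · rw [hval, gT_f hA, hTsum]
    have h3 := abs_le.1 (hL _ (hA.wt 1))
    have h4 : T 1 = 2 * M * (n + 1) - 1 := by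
      simp only [hT, hn1]
      norm_num
    rw [h4]
    have h5 : 1 ≤ (((n : ℤ) + 1) * (2 * M * (n + 1) - 1) -
        (4 * M * (n + 1) - ∑ i : Fin (n + 1), ((i : ℕ) : ℤ))) * N := by
      have : 0 < (((n : ℤ) + 1) * (2 * M * (n + 1) - 1) -
        (4 * M * (n + 1) - ∑ i : Fin (n + 1), ((i : ℕ) : ℤ))) * N := by
        refine mul_pos ?_ hN
        nlinarith
      omega
    nlinarith [h3.1, h3.2]
  · rw [hval, gT_f hA, hTsum]
    have h3 := abs_le.1 (hL _ (hA.wt j))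
    have h4 : T j = -j := by
      simp only [hT]
      rw [if_neg (by omega)]
    rw [h4]
    have h5 : 1 ≤ -((((n : ℤ) + 1) * (-j) -
        (4 * M * (n + 1) - ∑ i : Fin (n + 1), ((i : ℕ) : ℤ))) * N) := by
      have : 0 < -((((n : ℤ) + 1) * (-j) -
        (4 * M * (n + 1) - ∑ i : Fin (n + 1), ((i : ℕ) : ℤ))) * N) := by
        rw [← neg_mul]
        refine mul_pos ?_ hN
        nlinarith
      omega
    nlinarith [h3.1, h3.2]

end Vale.Agent.P280.N2
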