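import Vale.Agent.P280.H989.AC
import Vale.Agent.P280.H267.Lift
import Vale.Agent.P280.N.M5

/-! P280, plan N, stage 2, block F: all the weights are liftable, hence homogeneity. -/

open DirectSum Vale.Agent.P280.T Vale.Agent.P280.H127

namespace Vale.Agent.P280.N2.F

open Vale.Agent.P280.N

section
variable {r : ℕ} {R : Type} [CommRing R] [IsDomain R] [Algebra ℂ R]
  {𝒜 : ℕ × (Fin r → ℤ) → Submodule ℂ R} [GradedAlgebra 𝒜]

/-- No multiple of an interior weight is a weight. -/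
theorem no_multiple_int (H : Hyp 𝒜) {lam : Fin r → ℤ} (hw : Wt 𝒜 lam)
    (hint : ∀ l : (Fin r → ℤ) →+ ℤ, 0 < l lam → ∃ ω, Wt 𝒜 ω ∧ l lam < l ω) {w : ℕ} (hw2 : 2 ≤ w) :
    ¬ Wt 𝒜 (-(w • lam)) := by
  intro hwt
  obtain ⟨N, n, f, β, E, F, hA, hf⟩ := H989.exists_AC H hw hint
  set L : Fin (n + 1) := Fin.last n with hL
  have hN0 := hA.N0
  have hn2 := hA.n2
  have e1 : -(w • lam) = w • f L := by rw [hf, smul_neg]
  rw [e1] at hwt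
  have hw3 : (2 : ℤ) ≤ w := by exact_mod_cast hw2
  have key : ∀ j, j ≠ L → w • f L = f L - f j := by
    intro j hj
    have hβ : β L j (w • f L) = w * N := by
      rw [map_nsmul, hA.be L j L (Ne.symm hj), if_pos rfl, if_neg (Ne.symm hj), sub_zero,
        nsmul_eq_mul]
    by_contra hne
    by_cases hne' : w • f L = -(f L - f j)
    · have h1 : β L j (w • f L) = -(2 * N) := by
        rw [hne', map_neg, (hA.root L j (Ne.symm hj)).two]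
      rw [hβ] at h1
      nlinarith
    · have h1 := (hA.root L j (Ne.symm hj)).bd _ hwt hne hne'
      rw [hβ, abs_le] at h1
      nlinarith [h1.2]
  have hi : (⟨0, by omega⟩ : Fin (n + 1)) ≠ L := by
    intro h
    have := congrArg Fin.val h
    simp [hL] at this
    omega
  have hj : (⟨1, by omega⟩ : Fin (n + 1)) ≠ L := by
    intro h
    have := congrArg Fin.val h
    simp [hL] at this
    omega
  have hij : (⟨0, by omega⟩ : Fin (n + 1)) ≠ ⟨1, by omega⟩ := by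
    intro h
    have := congrArg Fin.val h
    simp at this
  have h1 := (key _ hi).symm.trans (key _ hj)
  have h2 : f ⟨0, by omega⟩ = f ⟨1, by omega⟩ := sub_right_injective h1
  have h3 := hA.be _ _ ⟨0, by omega⟩ hij
  have h4 := hA.be _ _ ⟨1, by omega⟩ hij
  rw [← h2, h3, if_pos rfl, if_neg hij, if_neg (Ne.symm hij), if_pos rfl] at h4
  omega

/-- All the weights are liftable if the interior ones are. -/
theorem liftable_of_int (H : Hyp 𝒜)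
    (hI : ∀ lam : Fin r → ℤ, Wt 𝒜 lam →
      (∀ l : (Fin r → ℤ) →+ ℤ, 0 < l lam → ∃ ω, Wt 𝒜 ω ∧ l lam < l ω) → Liftable 𝒜 lam)
    (χ : Fin r → ℤ) : Liftable 𝒜 χ := by
  by_cases hw : Wt 𝒜 χ
  · by_cases hint : ∀ l : (Fin r → ℤ) →+ ℤ, 0 < l χ → ∃ ω, Wt 𝒜 ω ∧ l χ < l ω
    · exact hI χ hw hint
    · push Not at hint
      obtain ⟨l, hl, hmax⟩ := hint
      exact liftable_boundary H hw l hl hmax
  · intro x ν hx0 hx hχ
    exact absurd ⟨⟨x, ν, hx0, hx⟩, hχ⟩ hw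

/-- Homogeneity if all the weights are liftable. -/
theorem homogeneous_of_int (H : Hyp 𝒜)
    (hI : ∀ lam : Fin r → ℤ, Wt 𝒜 lam →
      (∀ l : (Fin r → ℤ) →+ ℤ, 0 < l lam → ∃ ω, Wt 𝒜 ω ∧ l lam < l ω) → Liftable 𝒜 lam) :
    IsHomogeneousManifold 𝒜 ∧ IsTransitive 𝒜 := by
  obtain ⟨g, hg⟩ := H587.exists_generic (finite_weights H.hX)
  obtain ⟨p, μ, hp0, hp, hpos, -⟩ := H587.exists_source H.hX H.iso g hg
  obtain ⟨a, ha⟩ : ∃ a : ℤ, ∀ χ, TangentWeight 𝒜 p μ χ → g χ ≤ a := by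
    obtain ⟨a, ha⟩ := ((H170.pi_finite H (⟨p, μ, hp0, hp⟩ : FP 𝒜)).image g).bddAbove
    exact ⟨a, fun χ hχ => ha ⟨χ, hχ, rfl⟩⟩
  refine H455.cor_lift H.hX (l := g) (a := a) ⟨hp0, hp, fun χ hχ => ⟨hpos χ hχ, ha χ hχ⟩⟩
    fun χ hχ => ⟨liftable_of_int H hI χ, liftable_of_int H hI (-χ), ?_⟩
  have hw : Wt 𝒜 χ := ⟨⟨p, μ, hp0, hp⟩, hχ⟩
  intro x ν w hw2 hx0 hx hχ'
  by_cases hint : ∀ l : (Fin r → ℤ) →+ ℤ, 0 < l χ → ∃ ω, Wt 𝒜 ω ∧ l χ < l ω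
  · exact no_multiple_int H hw hint hw2 ⟨⟨x, ν, hx0, hx⟩, hχ'⟩
  · push Not at hint
    obtain ⟨l, hl, hmax⟩ := hint
    exact H93.no_multiple' H.hX hg hl (fun y ξ ω hy0 hy hω => hmax ω ⟨⟨y, ξ, hy0, hy⟩, hω⟩)
      x ν w hw2 hx0 hx hχ'

end

section
variable {r : ℕ} {R : Type} [CommRing R] [Algebra ℂ R]
  {𝒜 : ℕ × (Fin r → ℤ) → Submodule ℂ R} [GradedAlgebra 𝒜]

/-- The theorem for an arbitrary torus, over the lifting of the interior weights for a maximal one. -/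
theorem final_of
    (hI : ∀ (r' : ℕ) (_ : IsDomain R) (𝒜' : ℕ × (Fin r' → ℤ) → Submodule ℂ R)
      (_ : GradedAlgebra 𝒜'), Hyp 𝒜' → ∀ lam : Fin r' → ℤ, Wt 𝒜' lam →
      (∀ l : (Fin r' → ℤ) →+ ℤ, 0 < l lam → ∃ ω, Wt 𝒜' ω ∧ l lam < l ω) → Liftable 𝒜' lam)
    (hX : IsTorusManifold 𝒜) (hN : NefOnRationalCurves 𝒜)
    (hiso : ∀ x ν, ¬ IsVertex 𝒜 x → IsFixed 𝒜 x ν → ¬ TangentWeight 𝒜 x ν 0)
    (hind : ∀ x ν ω ω', ¬ IsVertex 𝒜 x → IsFixed 𝒜 x ν → TangentWeight 𝒜 x ν ω →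
      TangentWeight 𝒜 x ν ω' → (∃ a b : ℤ, a ≠ 0 ∧ b ≠ 0 ∧ a • ω = b • ω') → ω = ω')
    (hmult : ∀ x ν ω, ¬ IsVertex 𝒜 x → IsFixed 𝒜 x ν → TangentWeight 𝒜 x ν ω →
      ∀ v v' : R →ₗ[ℂ] ℂ, IsTangent x v → HasWeight 𝒜 ν ω v → IsTangent x v' →
        HasWeight 𝒜 ν ω v' → ∃ c c' : ℂ, (c ≠ 0 ∨ c' ≠ 0) ∧ ∀ h, c * v h + c' * v' h = 0) :
    (∀ χ : Fin r → ℤ, Liftable 𝒜 χ) ∧ IsHomogeneousManifold 𝒜 ∧ IsTransitive 𝒜 := by
  obtain ⟨r', 𝒜', hg, π, hr, ht⟩ := exists_maxTor hX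
  have hdom := hX.domain
  have H : Hyp 𝒜' := ref_hyp hr ht hX hN hiso hind hmult
  have hI' := hI r' hdom 𝒜' hg H
  refine ⟨fun χ => ?_, ref_back hr (homogeneous_of_int H hI')⟩
  by_cases hχ0 : χ = 0
  · subst hχ0
    intro x ν hx0 hx hχ
    exact absurd hχ (hiso x ν hx0 hx)
  · exact H267.ref_liftable hr hX H.hX hiso hχ0 fun χ' _ => liftable_of_int H hI' χ'

end

end Vale.Agent.P280.N2.F
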