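import Vale.Agent.P280.N2.Defs
import Vale.Agent.P280.N2.F

/-! P280, plan N, stage 2, block F: from `Real` to the theorem. -/

open DirectSum Vale.Agent.P280.T Vale.Agent.P280.H127

namespace Vale.Agent.P280.N2.F

open Vale.Agent.P280.N

/-- A weight realised at all the points where it is a tangent weight is liftable. -/
theorem liftable_of_real {r : ℕ} {R : Type} [CommRing R] [IsDomain R] [Algebra ℂ R]
    {𝒜 : ℕ × (Fin r → ℤ) → Submodule ℂ R} [GradedAlgebra 𝒜] {ω : Fin r → ℤ}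
    (h : ∀ z : FP 𝒜, z.Pi ω → Real 𝒜 z ω) : Liftable 𝒜 ω := by
  intro x ν hx0 hx hω v hv hw
  exact exists_der_of_glob (y := (⟨x, ν, hx0, hx⟩ : FP 𝒜)) (h ⟨x, ν, hx0, hx⟩ hω v hv hw)

/-- The theorem for an arbitrary torus, over `real_interior`. -/
theorem final_of_real {r : ℕ} {R : Type} [CommRing R] [Algebra ℂ R]
    {𝒜 : ℕ × (Fin r → ℤ) → Submodule ℂ R} [GradedAlgebra 𝒜]
    (hI : ∀ (r' : ℕ) (_ : IsDomain R) (𝒜' : ℕ × (Fin r' → ℤ) → Submodule ℂ R)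
      (_ : GradedAlgebra 𝒜'), Hyp 𝒜' → ∀ lam : Fin r' → ℤ,
      (∀ l : (Fin r' → ℤ) →+ ℤ, 0 < l lam → ∃ ω, Wt 𝒜' ω ∧ l lam < l ω) →
        ∀ z : FP 𝒜', z.Pi lam → Real 𝒜' z lam)
    (hX : IsTorusManifold 𝒜) (hN : NefOnRationalCurves 𝒜)
    (hiso : ∀ x ν, ¬ IsVertex 𝒜 x → IsFixed 𝒜 x ν → ¬ TangentWeight 𝒜 x ν 0)
    (hind : ∀ x ν ω ω', ¬ IsVertex 𝒜 x → IsFixed 𝒜 x ν → TangentWeight 𝒜 x ν ω →
      TangentWeight 𝒜 x ν ω' → (∃ a b : ℤ, a ≠ 0 ∧ b ≠ 0 ∧ a • ω = b • ω') → ω = ω')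
    (hmult : ∀ x ν ω, ¬ IsVertex 𝒜 x → IsFixed 𝒜 x ν → TangentWeight 𝒜 x ν ω →
      ∀ v v' : R →ₗ[ℂ] ℂ, IsTangent x v → HasWeight 𝒜 ν ω v → IsTangent x v' →
        HasWeight 𝒜 ν ω v' → ∃ c c' : ℂ, (c ≠ 0 ∨ c' ≠ 0) ∧ ∀ h, c * v h + c' * v' h = 0) :
    (∀ χ : Fin r → ℤ, Liftable 𝒜 χ) ∧ IsHomogeneousManifold 𝒜 ∧ IsTransitive 𝒜 :=
  final_of (fun r' hd 𝒜' hg H lam _ hint => liftable_of_real (hI r' hd 𝒜' hg H lam hint))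
    hX hN hiso hind hmult

end Vale.Agent.P280.N2.F
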