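import Vale.Agent.P280.H6.FieldB

/-! P280, stage 2: `fieldB`. -/

open DirectSum Vale.Agent.P280.T Vale.Agent.P280.H127 Vale.Agent.P280.N Vale.Agent.P280.N.H989

namespace Vale.Agent.P280.N2

variable {r : ℕ} {R : Type} [CommRing R] [IsDomain R] [Algebra ℂ R]
  {𝒜 : ℕ × (Fin r → ℤ) → Submodule ℂ R} [GradedAlgebra 𝒜]

theorem fieldB (H : Hyp 𝒜) {N : ℤ} {n : ℕ} {f : Fin (n + 1) → Fin r → ℤ}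
    {β : Fin (n + 1) → Fin (n + 1) → ((Fin r → ℤ) →+ ℤ)} {E F : Fin (n + 1) → Fin (n + 1) → VF R}
    (hA : AC 𝒜 N n f β E F) (hv : NoVec 𝒜 n f) {c : (Fin r → ℤ) →+ ℤ} (hc : Ch2 𝒜 n f c)
    {p q : FP 𝒜} (hp : Pos c p) (hq1 : q.Pi (-f 1)) (hq : ∀ ψ, q.Pi ψ → ψ ≠ -f 1 → 0 < c ψ)
    (hno : ¬ q.Pi (f 1 - f (Fin.last n))) {m : ℕ} {φ : R →ₐ[ℂ] Polynomial ℂ}
    (hφ : Curve q p (-f 1) m φ) :
    ∃ D : VF R, Glob D ∧ HV 𝒜 (-f (Fin.last n)) D ∧ NZ φ D ∧ ValV p.q D 0 :=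
  H6.fieldB H hA hv hc hp hq1 hq hno hφ

end Vale.Agent.P280.N2
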