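import Vale.Agent.P280.H399.Low
import Vale.Agent.P280.N2.Rel
import Vale.Agent.P280.H760.FieldC

/-! P280, stage 2: FieldC. -/

open DirectSum Vale.Agent.P280.T Vale.Agent.P280.H127 Vale.Agent.P280.N Vale.Agent.P280.N.H989

namespace Vale.Agent.P280.N2

variable {r : ℕ} {R : Type} [CommRing R] [IsDomain R] [Algebra ℂ R]
  {𝒜 : ℕ × (Fin r → ℤ) → Submodule ℂ R} [GradedAlgebra 𝒜]

set_option linter.unusedVariables false in
/-- The field `X₀ w₀` along the curve of weight `f 0`. -/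
theorem fieldC (H : Hyp 𝒜) {N : ℤ} {n : ℕ} {f : Fin (n + 1) → Fin r → ℤ}
    {β : Fin (n + 1) → Fin (n + 1) → ((Fin r → ℤ) →+ ℤ)} {E F : Fin (n + 1) → Fin (n + 1) → VF R}
    (hA : AC 𝒜 N n f β E F) (hv : NoVec 𝒜 n f) {c : (Fin r → ℤ) →+ ℤ} (hc : Ch2 𝒜 n f c)
    {p q : FP 𝒜} (hp : Pos c p) (hq : q.Pi (-f (Fin.last n))) (h0 : p.Pi (f 0 - f (Fin.last n)))
    (h1 : ¬ p.Pi (f 1)) (hno : ¬ p.Pi (f 1 - f (Fin.last n))) {m : ℕ}
    {φ : R →ₐ[ℂ] Polynomial ℂ} (hφ : Curve q p (-f 0) m φ) :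
    ∃ D : VF R, Glob D ∧ HV 𝒜 (-f (Fin.last n)) D ∧ NZ φ D :=
  H760.fieldC_of H hA hc
    (fun hlam _ hvv hs hg => H399.lowest_field H c hc.ne hlam hvv hs hg)
    (fun hb hcb hoth _ _ _ hl hpsi hM he => rel_field H hA hv hc hb hcb hoth hl hpsi hM he)
    hp h0 h1 hno hφ

end Vale.Agent.P280.N2
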