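import Vale.Agent.P280.N2.Defs
import Vale.Agent.P280.H495.U3

/-! P280, stage 2: the case `n = 2` with two possible orders. -/

open DirectSum Vale.Agent.P280.T Vale.Agent.P280.H127 Vale.Agent.P280.N

namespace Vale.Agent.P280.N2

open Vale.Agent.P280.N.H989

variable {r : ℕ} {R : Type} [CommRing R] [IsDomain R] [Algebra ℂ R]
  {𝒜 : ℕ × (Fin r → ℤ) → Submodule ℂ R} [GradedAlgebra 𝒜]
  {N : ℤ} {f : Fin (2 + 1) → Fin r → ℤ}
  {β : Fin (2 + 1) → Fin (2 + 1) → ((Fin r → ℤ) →+ ℤ)} {E F : Fin (2 + 1) → Fin (2 + 1) → VF R}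

omit [GradedAlgebra 𝒜] in
/-- `-f L` is no multiple of `-f 1`. -/
theorem fieldD_ne (hA : AC 𝒜 N 2 f β E F) :
    ∀ k : ℤ, -f (Fin.last 2) ≠ k • (-f 1) := by
  intro k hk
  have hN := hA.N0
  have h0L : (0 : Fin (2 + 1)) ≠ Fin.last 2 := by decide
  have h1 := congrArg (β 0 (Fin.last 2)) hk
  rw [map_neg, map_zsmul, map_neg, hA.be _ _ _ h0L, hA.be _ _ _ h0L, if_neg (by decide),
    if_pos rfl, if_neg (by decide), if_neg (by decide)] at h1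
  simp at h1
  omega

omit [GradedAlgebra 𝒜] in
/-- The possible orders. -/
theorem fieldD_ord (hA : AC 𝒜 N 2 f β E F) {k : ℕ}
    (hk : Wt 𝒜 (-f (Fin.last 2) - k • (-f 1))) : k = 0 ∨ k = 1 := by
  have hN := hA.N0
  have h1L : (1 : Fin (2 + 1)) ≠ Fin.last 2 := by decide
  have hr := hA.root 1 (Fin.last 2) h1L
  have h1 : β 1 (Fin.last 2) (-f (Fin.last 2) - k • (-f 1)) = (k + 1) * N := by
    rw [map_sub, map_neg, map_nsmul, map_neg, hA.be _ _ _ h1L, hA.be _ _ _ h1L,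
      if_neg (by decide), if_pos rfl, if_pos rfl, if_neg (by decide), nsmul_eq_mul]
    ring
  by_cases h2 : -f (Fin.last 2) - k • (-f 1) = f 1 - f (Fin.last 2)
  · rw [h2, hr.two] at h1
    right
    have h3 : ((k : ℤ) - 1) * N = 0 := by linear_combination -h1
    rcases mul_eq_zero.1 h3 with h | h <;> omega
  · by_cases h3 : -f (Fin.last 2) - k • (-f 1) = -(f 1 - f (Fin.last 2))
    · rw [h3, map_neg, hr.two] at h1
      have h4 : (0 : ℤ) ≤ (k : ℤ) * N := by positivity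
      nlinarith
    · have h4 := abs_le.1 (hr.bd _ hk h2 h3)
      rw [h1] at h4
      left
      have h5 : (k : ℤ) ≤ 0 := by nlinarith [h4.2]
      omega

/-- **Leaf (d)**, over leaves (a) and (b). -/
theorem fieldD_of (H : Hyp 𝒜) (hA : AC 𝒜 N 2 f β E F) {p z : FP 𝒜}
    (hpl : p.Pi (-f (Fin.last 2))) {m : ℕ} {φ : R →ₐ[ℂ] Polynomial ℂ} (hφ : Curve z p (-f 1) m φ)
    (two : Real 𝒜 p (-f (Fin.last 2)))
    (fieldB : ¬ z.Pi (f 1 - f (Fin.last 2)) → ∃ D : VF R, Glob D ∧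
      HV 𝒜 (-f (Fin.last 2)) D ∧ NZ φ D ∧ ValV p.q D 0) : Real 𝒜 z (-f (Fin.last 2)) := by
  intro t ht htw
  obtain ⟨s, hs, hsw, hs0⟩ := hpl
  obtain ⟨D₁, hD₁, hv₁, hval⟩ := two s hs hsw
  have h₁ : ¬ ValV p.q D₁ 0 := by
    intro h0
    obtain ⟨d, m', h, hh, hne⟩ := hs0 0
    apply hne
    rw [hval.unique h0]
    simp
  by_cases hzw : z.Pi (f 1 - f (Fin.last 2))
  · have hr := hA.root 1 (Fin.last 2) (by decide)
    obtain ⟨α, hα⟩ := H495.real_u2 H hφ (fieldD_ne hA) (fun k hk => fieldD_ord hA ⟨p, hk⟩)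
      hD₁ hv₁ h₁ hr.globE (hr.hvE.cast (by abel)) (hr.atE z hzw) ht htw
    exact ⟨α • D₁, Glob.smulC α hD₁, HV.smulC α hv₁, hα⟩
  · obtain ⟨D₂, hD₂, hv₂, hne, h₂⟩ := fieldB hzw
    exact H495.real_u3 H hφ (fieldD_ne hA) (fun k hk => fieldD_ord hA ⟨p, hk⟩) hD₁ hv₁ h₁ hD₂ hv₂
      h₂ hne ht htw

end Vale.Agent.P280.N2
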