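import Vale.Agent.P280.N2.Defs

/-! P280, plan N, stage 2: an interior weight is the last letter of a component. -/

open DirectSum Vale.Agent.P280.T Vale.Agent.P280.H127

namespace Vale.Agent.P280.N2.Int

open Vale.Agent.P280.N Vale.Agent.P280.N.H989

variable {r : ℕ} {R : Type} [CommRing R] [IsDomain R] [Algebra ℂ R]
  {𝒜 : ℕ × (Fin r → ℤ) → Submodule ℂ R} [GradedAlgebra 𝒜]

/-- (g), over (e) `real_AC` and (f) `real_vec`. -/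
theorem real_interior_of (H : Hyp 𝒜)
    (hAC : ∀ (N : ℤ) (n : ℕ) (f : Fin (n + 1) → Fin r → ℤ)
      (β : Fin (n + 1) → Fin (n + 1) → ((Fin r → ℤ) →+ ℤ)) (E F : Fin (n + 1) → Fin (n + 1) → VF R),
      AC 𝒜 N n f β E F → NoVec 𝒜 n f → ∀ z : FP 𝒜, z.Pi (-f (Fin.last n)) →
        Real 𝒜 z (-f (Fin.last n)))
    (hvec : ∀ (N : ℤ) (f : Fin (3 + 1) → Fin r → ℤ)
      (β : Fin (3 + 1) → Fin (3 + 1) → ((Fin r → ℤ) →+ ℤ)) (E F : Fin (3 + 1) → Fin (3 + 1) → VF R),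
      AC 𝒜 N 3 f β E F → (∃ i j, i ≠ j ∧ Wt 𝒜 (f i + f j)) → ∀ z : FP 𝒜,
        z.Pi (-f (Fin.last 3)) → Real 𝒜 z (-f (Fin.last 3)))
    {ω : Fin r → ℤ} (hint : Inter 𝒜 ω) (z : FP 𝒜) (hz : z.Pi ω) : Real 𝒜 z ω := by
  obtain ⟨N, n, f, β, E, F, hA, hf⟩ := exists_AC H ⟨z, hz⟩ hint
  have hω : ω = -f (Fin.last n) := by rw [hf, neg_neg]
  by_cases hv : NoVec 𝒜 n f
  · rw [hω]
    exact hAC N n f β E F hA hv z (hω ▸ hz)
  · have h1 : n = 3 ∧ ∃ i j, i ≠ j ∧ Wt 𝒜 (f i + f j) := by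
      unfold NoVec at hv
      push Not at hv
      exact hv
    obtain ⟨rfl, h2⟩ := h1
    rw [hω]
    exact hvec N f β E F hA h2 z (hω ▸ hz)

end Vale.Agent.P280.N2.Int
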