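import Vale.Agent.P280.N2.Two
import Vale.Agent.P280.N2.FieldB
import Vale.Agent.P280.N2.FieldC
import Vale.Agent.P280.N2.FieldD
import Vale.Agent.P280.N2.ExCh2
import Vale.Agent.P280.H72.RealAC

/-! P280, stage 2: the interior weights of a component without vector weights are realised. -/

open DirectSum Vale.Agent.P280.T Vale.Agent.P280.H127 Vale.Agent.P280.N Vale.Agent.P280.N.H989

namespace Vale.Agent.P280.N2

variable {r : ℕ} {R : Type} [CommRing R] [IsDomain R] [Algebra ℂ R]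
  {𝒜 : ℕ × (Fin r → ℤ) → Submodule ℂ R} [GradedAlgebra 𝒜]

theorem real_AC (H : Hyp 𝒜) {N : ℤ} {n : ℕ} {f : Fin (n + 1) → Fin r → ℤ}
    {β : Fin (n + 1) → Fin (n + 1) → ((Fin r → ℤ) →+ ℤ)} {E F : Fin (n + 1) → Fin (n + 1) → VF R}
    (hA : AC 𝒜 N n f β E F) (hv : NoVec 𝒜 n f) (z : FP 𝒜) (hz : z.Pi (-f (Fin.last n))) :
    Real 𝒜 z (-f (Fin.last n)) := by
  obtain ⟨c, hc⟩ := exists_Ch2 H hA
  refine H72.real_AC_of H hA hv hc (fun p hp hl => two H hA hv hc hp hl) ?_ ?_ ?_ z hz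
  · intro p q hp hq1 hq hno k φ hφ
    obtain ⟨D, hD, hDv, hn, -⟩ := fieldB H hA hv hc hp hq1 hq hno hφ
    exact ⟨D, hD, hDv, hn⟩
  · intro p q hp hq h0 h1 hno k φ hφ
    exact fieldC H hA hv hc hp hq h0 h1 hno hφ
  · intro hn p z hp hz1 hz hzl hpl k φ hφ
    subst hn
    exact fieldD_of H hA hpl hφ (two H hA hv hc hp hpl)
      (fun hno => fieldB H hA hv hc hp hz1 hz hno hφ)

end Vale.Agent.P280.N2
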