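import Vale.Agent.P280.H539.B3Ind
import Vale.Agent.P280.H79.B3Src
import Vale.Agent.P280.H79.Final
import Vale.Agent.P280.H669.VecNs
import Vale.Agent.P280.H509.BX

/-! P280, stage 2: the component with vector weights. -/

open DirectSum Vale.Agent.P280.T Vale.Agent.P280.H127 Vale.Agent.P280.N Vale.Agent.P280.N.H989

namespace Vale.Agent.P280.N2

variable {r : ℕ} {R : Type} [CommRing R] [IsDomain R] [Algebra ℂ R]
  {𝒜 : ℕ × (Fin r → ℤ) → Submodule ℂ R} [GradedAlgebra 𝒜]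

theorem real_vec (H : Hyp 𝒜) {N : ℤ} {f : Fin (3 + 1) → Fin r → ℤ}
    {β : Fin (3 + 1) → Fin (3 + 1) → ((Fin r → ℤ) →+ ℤ)} {E F : Fin (3 + 1) → Fin (3 + 1) → VF R}
    (hA : AC 𝒜 N 3 f β E F) (hvec : ∃ i j, i ≠ j ∧ Wt 𝒜 (f i + f j)) (z : FP 𝒜)
    (hz : z.Pi (-f (Fin.last 3))) : Real 𝒜 z (-f (Fin.last 3)) := by
  have hns : H509.NS 𝒜 f β := fun i j k l h1 h2 h3 h4 h5 h6 q χ hn hχ hβ =>
    H669.vec_ns H hA hvec h1 h2 h3 h4 h5 h6 q hn hχ hβ
  refine real_of_ne H hz ?_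
  exact H539.good_all H hA hvec
    (fun z hr he h3 h0 => H509.bx H hA hns z hr (fun i j hij hj => he i j hij (fun h => by
      rw [h] at hj
      exact absurd hj (by decide))) h3 h0)
    (fun c hc htau p hp hl hno => ne_of_real hl (b3_src H hA c hc htau hp fun i hi => hno i
      (fun h => by
        rw [h] at hi
        exact absurd hi (by decide)))) z hz

end Vale.Agent.P280.N2
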