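import Vale.Agent.P280.N2.RealAC
import Vale.Agent.P280.N2.RealVec
import Vale.Agent.P280.N2.Int

/-! P280, stage 2: the interior weights. -/

open DirectSum Vale.Agent.P280.T Vale.Agent.P280.H127 Vale.Agent.P280.N Vale.Agent.P280.N.H989

namespace Vale.Agent.P280.N2

variable {r : ℕ} {R : Type} [CommRing R] [IsDomain R] [Algebra ℂ R]
  {𝒜 : ℕ × (Fin r → ℤ) → Submodule ℂ R} [GradedAlgebra 𝒜]

/-- Every interior weight is realised at every point. -/
theorem real_interior (H : Hyp 𝒜) {ω : Fin r → ℤ} (hint : Inter 𝒜 ω) (z : FP 𝒜)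
    (hz : z.Pi ω) : Real 𝒜 z ω :=
  Int.real_interior_of H (fun _ _ _ _ _ _ hA hv z hz => real_AC H hA hv z hz)
    (fun _ _ _ _ _ hA hv z hz => real_vec H hA hv z hz) hint z hz

end Vale.Agent.P280.N2
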