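import Vale.Agent.P280.N2.M1
import Vale.Agent.P280.N2.TwoUp
import Vale.Agent.P280.H490.CurveU
import Vale.Agent.P280.H495.U2
import Vale.Agent.P280.H155.Nef0

/-! P280, stage 2: the induction over all fixed points with the weight `-f n`. -/

open DirectSum Vale.Agent.P280.T Vale.Agent.P280.H127 Vale.Agent.P280.N Vale.Agent.P280.N.H989

namespace Vale.Agent.P280.N2

variable {r : ℕ} {R : Type} [CommRing R] [IsDomain R] [Algebra ℂ R]
  {𝒜 : ℕ × (Fin r → ℤ) → Submodule ℂ R} [GradedAlgebra 𝒜]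
variable {N : ℤ} {n : ℕ} {f : Fin (n + 1) → Fin r → ℤ}
  {β : Fin (n + 1) → Fin (n + 1) → ((Fin r → ℤ) →+ ℤ)} {E F : Fin (n + 1) → Fin (n + 1) → VF R}

/-- The weight `χ` is realised at `y`. -/
def Rl (𝒜 : ℕ × (Fin r → ℤ) → Submodule ℂ R) (y : FP 𝒜) (χ : Fin r → ℤ) : Prop :=
  ∃ D : VF R, Glob D ∧ HV 𝒜 χ D ∧ ¬ ValV y.q D 0

omit [IsDomain R] in
theorem ne_smul_of_pi (H : Hyp 𝒜) {y : FP 𝒜} {χ a : Fin r → ℤ} (hχ : y.Pi χ) (ha : y.Pi a)
    (hne : χ ≠ a) (k : ℤ) : χ ≠ k • a := by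
  intro h
  apply hne
  refine H.ind y.q y.ν χ a y.nv y.fix hχ ha ⟨1, k, one_ne_zero, ?_, by rw [one_smul, h]⟩
  rintro rfl
  rw [zero_smul] at h
  exact H.iso y.q y.ν y.nv y.fix (h ▸ hχ)

section idx
theorem val_one (hn : 2 ≤ n) : ((1 : Fin (n + 1)) : ℕ) = 1 := by
  rcases n with _ | n
  · omega
  · rfl

theorem ne01 (hn : 2 ≤ n) : (0 : Fin (n + 1)) ≠ 1 := by
  intro h
  have h1 := congrArg Fin.val h
  rw [val_one hn] at h1
  simp at h1

theorem ne0L (hn : 2 ≤ n) : (0 : Fin (n + 1)) ≠ Fin.last n := by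
  intro h
  have h1 := congrArg Fin.val h
  simp at h1
  omega

theorem ne1L (hn : 2 ≤ n) : (1 : Fin (n + 1)) ≠ Fin.last n := by
  intro h
  have h1 := congrArg Fin.val h
  rw [val_one hn] at h1
  simp at h1
  omega
end idx

/-- Closure by a root of the component. -/
theorem clos (H : Hyp 𝒜) (hA : AC 𝒜 N n f β E F) {i j : Fin (n + 1)} (hij : i ≠ j) {y : FP 𝒜}
    (hna : ¬ y.Pi (f j - f i)) {χ : Fin r → ℤ} (hχ : y.Pi χ) (hβ : β i j χ < 0) :
    y.Pi (χ + (f i - f j)) :=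
  H155.nef_string0 H hA.N0 (H155.toRoot0 (hA.root i j hij)) (hA.root i j hij).int y
    (by rwa [neg_sub]) hχ hβ

section
variable {c : (Fin r → ℤ) →+ ℤ}

theorem wt_line (H : Hyp 𝒜) (hA : AC 𝒜 N n f β E F) (hv : NoVec 𝒜 n f) (hc : Ch2 𝒜 n f c)
    {a : Fin r → ℤ} (ha : Wt 𝒜 a) (hca : c a < 0) {k : ℕ} (hk : 1 ≤ k)
    (h : Wt 𝒜 (-f (Fin.last n) - k • a)) : k = 1 ∧ (a = -f 0 ∨ a = -f 1) := by
  rcases lam_sub H hA hv hc ha hca h with h0 | h1
  · omega
  · exact h1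

omit [GradedAlgebra 𝒜] in
theorem wt_up (hA : AC 𝒜 N n f β E F) (hv : NoVec 𝒜 n f) (h3 : 3 ≤ n)
    {i : Fin (n + 1)} (hi : i ≠ Fin.last n) {k : ℕ} (hk : 1 ≤ k) :
    ¬ Wt 𝒜 (-f (Fin.last n) - k • f i) := by
  intro h
  have := not_wt_neg_smul hA hv h3 hi.symm h
  omega

omit [GradedAlgebra 𝒜] in
theorem wt_up2 (hA : AC 𝒜 N n f β E F) (h2 : n = 2) {i : Fin (n + 1)}
    (hi : i ≠ Fin.last n) {k : ℕ} (hk : 1 ≤ k) (h : Wt 𝒜 (-f (Fin.last n) - k • f i)) :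
    k = 1 ∨ k = 2 := by
  subst h2
  obtain ⟨j, hij, hj⟩ : ∃ j : Fin (2 + 1), i ≠ j ∧ j ≠ Fin.last 2 := by
    fin_cases i
    · exact ⟨1, by decide, by decide⟩
    · exact ⟨0, by decide, by decide⟩
    · exact absurd rfl hi
  rw [sub_eq_add_neg, ← smul_neg] at h
  rcases lam_add2 hA hij hi hj h with h0 | h1 | h1
  · omega
  · exact Or.inl h1.1
  · exact Or.inr h1.1

omit [GradedAlgebra 𝒜] in
theorem sum3 (hA : AC 𝒜 N n f β E F) (h2 : n = 2) : f 0 + f 1 + f (Fin.last n) = 0 := by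
  subst h2
  have h := hA.sum
  rw [Fin.sum_univ_three] at h
  exact h

end

/-- A weight of the first point is found at the second one, up to a multiple. -/
theorem fwd (H : Hyp 𝒜) {y y' : FP 𝒜} {a : Fin r → ℤ} {m : ℕ} {φ : R →ₐ[ℂ] Polynomial ℂ}
    (hφ : Curve y y' a m φ) {μ : Fin r → ℤ} (hμ : y.Pi μ) (hne : μ ≠ a) :
    ∃ k : ℕ, y'.Pi (μ - k • a) := by
  obtain ⟨φ', hφ', -⟩ := H490.exists_rev H hφ
  have hl := ne_smul_of_pi H hμ hφ.ya hne
  obtain ⟨k, hk⟩ := curve_wt H hφ' (μ := μ) (fun k h => hl (-k) (by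
    rw [h, smul_neg, neg_smul])) hμ
  refine ⟨k, ?_⟩
  have hk' : μ + (k : ℤ) • -a = μ - k • a := by
    rw [smul_neg, natCast_zsmul, sub_eq_add_neg]
  rwa [hk'] at hk

/-- A weight of the second point is found at the first one, up to a multiple. -/
theorem bwd (H : Hyp 𝒜) {y y' : FP 𝒜} {a : Fin r → ℤ} {m : ℕ} {φ : R →ₐ[ℂ] Polynomial ℂ}
    (hφ : Curve y y' a m φ) {μ : Fin r → ℤ} (hμ : y'.Pi μ) (hne : μ ≠ -a) :
    ∃ k : ℕ, y.Pi (μ + k • a) := by
  have hl := ne_smul_of_pi H hμ hφ.ya' hne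
  obtain ⟨k, hk⟩ := curve_wt H hφ (μ := μ) (fun k h => hl (-k) (by
    rw [h, smul_neg, neg_smul, neg_neg])) hμ
  exact ⟨k, by rwa [natCast_zsmul] at hk⟩

theorem be_l (hA : AC 𝒜 N n f β E F) {i j : Fin (n + 1)} (hij : i ≠ j) : β i j (f i) = N := by
  rw [hA.be _ _ _ hij]
  simp [hij]

theorem be_r (hA : AC 𝒜 N n f β E F) {i j : Fin (n + 1)} (hij : i ≠ j) : β i j (f j) = -N := by
  rw [hA.be _ _ _ hij]
  simp [hij.symm]

theorem be_o (hA : AC 𝒜 N n f β E F) {i j k : Fin (n + 1)} (hij : i ≠ j) (hi : k ≠ i)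
    (hj : k ≠ j) : β i j (f k) = 0 := by
  rw [hA.be _ _ _ hij]
  simp [hi, hj]

section main
variable {c : (Fin r → ℤ) →+ ℤ}

theorem ch2_signs (hn : 2 ≤ n) (hc : Ch2 𝒜 n f c) : 0 < c (f 1) ∧ c (f 1) < c (f 0) ∧
    0 < c (f 0) ∧ c (f (Fin.last n)) < 0 := by
  have h01lt : (0 : Fin (n + 1)) < 1 := by
    rw [Fin.lt_def, val_one hn]
    simp
  have c1 := hc.pos
  have c01 : c (f 1) < c (f 0) := hc.ord 0 1 h01lt
  exact ⟨c1, c01, by omega, hc.neg _ (by simpa using hn)⟩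

/-- The lower end of the curve of direction `-f 0` is the source. -/
theorem caseA_pos (H : Hyp 𝒜) (hA : AC 𝒜 N n f β E F) (hc : Ch2 𝒜 n f c) {z p : FP 𝒜}
    (hneg : ∀ a, z.Pi a → c a < 0 → a = -f 0 ∨ a = -f 1) {m : ℕ} {φ : R →ₐ[ℂ] Polynomial ℂ}
    (hφ : Curve z p (-f 0) m φ) (hplam : ¬ p.Pi (-f (Fin.last n))) : Pos c p := by
  have hn := hA.n2
  have hN := hA.N0
  have i1L := ne1L hn
  obtain ⟨c1, c01, c0, cL⟩ := ch2_signs hn hc
  have hp0 : p.Pi (f 0) := by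
    have h2 := hφ.ya'
    rwa [neg_neg] at h2
  have hp1 : ∀ ψ, p.Pi ψ → c ψ < 0 → ψ = -f 1 := by
    intro ψ hψ hcψ
    have hne : ψ ≠ f 0 := by
      rintro rfl
      omega
    obtain ⟨k, hk⟩ := bwd H hφ hψ (by rwa [neg_neg])
    have hck : c (ψ + k • -f 0) = c ψ - k * c (f 0) := by
      rw [map_add, map_nsmul, map_neg, nsmul_eq_mul]
      ring
    have hk0 : (0 : ℤ) ≤ k := Int.natCast_nonneg k
    rcases hneg _ hk (by rw [hck]; nlinarith) with h2 | h2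
    · exfalso
      refine ne_smul_of_pi H hψ hp0 hne ((k : ℤ) - 1) ?_
      have h3 : ψ = -f 0 + k • f 0 := by
        rw [← h2, smul_neg]
        abel
      rw [h3, sub_smul, one_smul, natCast_zsmul]
      abel
    · have h3 : ψ = -f 1 + k • f 0 := by
        rw [← h2, smul_neg]
        abel
      rcases Nat.eq_zero_or_pos k with h4 | h4
      · subst h4
        rw [h3, zero_smul, add_zero]
      · exfalso
        have h5 : (1 : ℤ) ≤ k := by exact_mod_cast h4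
        rw [h3, map_add, map_nsmul, map_neg, nsmul_eq_mul] at hcψ
        nlinarith
  have hnp1 : ¬ p.Pi (-f 1) := by
    intro h2
    have h3 : ¬ p.Pi (f (Fin.last n) - f 1) := by
      intro h4
      have h5 := hp1 _ h4 (by rw [map_sub]; omega)
      have h6 := congrArg (β 1 (Fin.last n)) h5
      rw [map_sub, map_neg, be_l hA i1L, be_r hA i1L] at h6
      omega
    have h4 := clos H hA i1L h3 h2 (by rw [map_neg, be_l hA i1L]; omega)
    rw [show -f 1 + (f 1 - f (Fin.last n)) = -f (Fin.last n) by abel] at h4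
    exact hplam h4
  intro ψ hψ
  by_contra h2
  have h3 := hp1 ψ hψ (by omega)
  rw [h3] at hψ
  exact hnp1 hψ

theorem caseA_f1 (H : Hyp 𝒜) (hA : AC 𝒜 N n f β E F) (hc : Ch2 𝒜 n f c) {z p : FP 𝒜}
    (hneg : ∀ a, z.Pi a → c a < 0 → a = -f 0 ∨ a = -f 1) {m : ℕ} {φ : R →ₐ[ℂ] Polynomial ℂ}
    (hφ : Curve z p (-f 0) m φ) (nf1 : ¬ z.Pi (f 1)) : ¬ p.Pi (f 1) := by
  have hn := hA.n2
  have hN := hA.N0
  have i01 := ne01 hn
  have i0L := ne0L hn
  have i1L := ne1L hn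
  obtain ⟨c1, c01, c0, cL⟩ := ch2_signs hn hc
  intro h2
  obtain ⟨k, hk⟩ := bwd H hφ h2 (by
    rw [neg_neg]
    intro h3
    have h4 := congrArg (β 0 1) h3
    rw [be_l hA i01, be_r hA i01] at h4
    omega)
  rcases Nat.eq_zero_or_pos k with h4 | h4
  · subst h4
    rw [zero_smul, add_zero] at hk
    exact nf1 hk
  · have h5 : (1 : ℤ) ≤ k := by exact_mod_cast h4
    rcases hneg _ hk (by
      rw [map_add, map_nsmul, map_neg, nsmul_eq_mul]
      nlinarith) with h6 | h6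
    · have h7 := congrArg (β 0 1) h6
      simp only [map_add, map_nsmul, map_neg, be_l hA i01, be_r hA i01] at h7
      have h8 := congrArg (β 0 (Fin.last n)) h6
      simp only [map_add, map_nsmul, map_neg, be_l hA i0L, be_o hA i0L i01.symm i1L] at h8
      rw [nsmul_eq_mul] at h7 h8
      have h9 : N = 0 := by linarith
      omega
    · have h7 := congrArg (β 1 (Fin.last n)) h6
      simp only [map_add, map_nsmul, map_neg, be_l hA i1L, be_o hA i1L i01 i0L, neg_zero,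
        smul_zero, add_zero] at h7
      omega

theorem caseA_b (H : Hyp 𝒜) (hA : AC 𝒜 N n f β E F) {z p : FP 𝒜}
    (hn10 : ¬ z.Pi (f 1 - f 0)) (hz : z.Pi (-f (Fin.last n))) {m : ℕ}
    {φ : R →ₐ[ℂ] Polynomial ℂ} (hφ : Curve z p (-f 0) m φ)
    (hk1 : ∀ k : ℕ, p.Pi (-f (Fin.last n) - k • -f 0) → k = 1) :
    ¬ p.Pi (f 1 - f (Fin.last n)) := by
  have hn := hA.n2
  have hN := hA.N0
  have i01 := ne01 hn
  have i0L := ne0L hn
  have i1L := ne1L hn
  have hla : -f (Fin.last n) ≠ -f 0 := by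
    intro h
    have h2 := congrArg (β 0 1) (neg_injective h)
    rw [be_l hA i01, be_o hA i01 i0L.symm i1L.symm] at h2
    omega
  have hl := ne_smul_of_pi H hz hφ.ya hla
  intro h2
  obtain ⟨k, hk⟩ := bwd H hφ h2 (by
    rw [neg_neg]
    intro h3
    have h4 := congrArg (β 0 1) h3
    rw [map_sub, be_l hA i01, be_r hA i01, be_o hA i01 i0L.symm i1L.symm] at h4
    omega)
  rcases Nat.eq_zero_or_pos k with h4 | h4
  · subst h4
    rw [zero_smul, add_zero] at hk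
    have h5 := clos H hA i01 hn10 hk (by
      rw [map_sub, be_r hA i01, be_o hA i01 i0L.symm i1L.symm]
      omega)
    rw [show f 1 - f (Fin.last n) + (f 0 - f 1) = f 0 - f (Fin.last n) by abel] at h5
    have hr := hA.root 0 (Fin.last n) i0L
    exact two_up H hφ hl hz hr.globE (by
      rw [show -f (Fin.last n) - -f 0 = f 0 - f (Fin.last n) by abel]
      exact hr.hvE) (hr.atE z h5) hk1
  · have h5 : (1 : ℤ) ≤ k := by exact_mod_cast h4
    have hr := hA.root 1 0 i01.symm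
    have hkN : N ≤ k * N := by nlinarith
    have hval : β 1 0 (f 1 - f (Fin.last n) + k • -f 0) = N + k * N := by
      simp only [map_add, map_sub, map_nsmul, map_neg, be_l hA i01.symm, be_r hA i01.symm,
        be_o hA i01.symm i1L.symm i0L.symm]
      rw [nsmul_eq_mul]
      ring
    by_cases h6 : f 1 - f (Fin.last n) + k • -f 0 = f 1 - f 0
    · have h7 := congrArg (β 0 1) h6
      simp only [map_add, map_sub, map_nsmul, map_neg, be_l hA i01, be_r hA i01,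
        be_o hA i01 i0L.symm i1L.symm] at h7
      have h8 := congrArg (β 0 (Fin.last n)) h6
      simp only [map_add, map_sub, map_nsmul, map_neg, be_l hA i0L, be_r hA i0L,
        be_o hA i0L i01.symm i1L] at h8
      rw [nsmul_eq_mul] at h7 h8
      have h9 : N = 0 := by linarith
      omega
    by_cases h7 : f 1 - f (Fin.last n) + k • -f 0 = -(f 1 - f 0)
    · have h8 := congrArg (β 1 0) h7
      rw [hval, map_neg, map_sub, be_l hA i01.symm, be_r hA i01.symm] at h8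
      linarith
    · have h8 := hr.bd _ ⟨z, hk⟩ h6 h7
      rw [hval, abs_le] at h8
      linarith [h8.2]

/-- Both `-f 0` and `-f 1` are weights at `z`. -/
theorem caseA (H : Hyp 𝒜) (hA : AC 𝒜 N n f β E F) (hv : NoVec 𝒜 n f) (hc : Ch2 𝒜 n f c)
    (fC : ∀ (p q : FP 𝒜) (m : ℕ) (φ : R →ₐ[ℂ] Polynomial ℂ), Pos c p →
      q.Pi (-f (Fin.last n)) → p.Pi (f 0 - f (Fin.last n)) → ¬ p.Pi (f 1) →
      ¬ p.Pi (f 1 - f (Fin.last n)) → Curve q p (-f 0) m φ →
      ∃ D : VF R, Glob D ∧ HV 𝒜 (-f (Fin.last n)) D ∧ NZ φ D) {z : FP 𝒜}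
    (hz : z.Pi (-f (Fin.last n)))
    (hbad : ∀ D : VF R, Glob D → HV 𝒜 (-f (Fin.last n)) D → ValV z.q D 0)
    (ih : ∀ (z' : FP 𝒜) (a : Fin r → ℤ) (m : ℕ) (φ : R →ₐ[ℂ] Polynomial ℂ), Curve z z' a m φ →
      c a < 0 → z'.Pi (-f (Fin.last n)) → Rl 𝒜 z' (-f (Fin.last n)))
    (hneg : ∀ a, z.Pi a → c a < 0 → a = -f 0 ∨ a = -f 1) (hn10 : ¬ z.Pi (f 1 - f 0))
    (h0 : z.Pi (-f 0)) : False := by
  have hn := hA.n2
  have hN := hA.N0
  have i01 := ne01 hn
  have i0L := ne0L hn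
  obtain ⟨c1, c01, c0, cL⟩ := ch2_signs hn hc
  have h1 : z.Pi (-f 1) := by
    have h2 := clos H hA i01 hn10 h0 (by rw [map_neg, be_l hA i01]; omega)
    rwa [show -f 0 + (f 0 - f 1) = -f 1 by abel] at h2
  have nf1 : ¬ z.Pi (f 1) := fun h => H170.not_pi_neg H h h1
  obtain ⟨p, m, φ, hφ⟩ := exists_curve H z h0
  have hca : c (-f 0) < 0 := by rw [map_neg]; omega
  have hla : -f (Fin.last n) ≠ -f 0 := by
    intro h
    have h2 := congrArg c (neg_injective h)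
    omega
  have hl := ne_smul_of_pi H hz h0 hla
  have hplam : ¬ p.Pi (-f (Fin.last n)) := by
    intro hp
    obtain ⟨D, hD, hDv, hD0⟩ := ih p _ m φ hφ hca hp
    obtain ⟨k, hk, hzk⟩ := curve_ta H hφ hD hDv hl (hbad D hD hDv) hD0
    rw [show -f (Fin.last n) + k • -f 0 = -f (Fin.last n) - k • f 0 by
      rw [smul_neg, sub_eq_add_neg]] at hzk
    rcases Nat.lt_or_ge n 3 with h3 | h3
    · have h2 : n = 2 := by omega
      have hs := sum3 hA h2
      rcases wt_up2 hA h2 i0L hk ⟨z, hzk⟩ with rfl | rfl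
      · apply nf1
        rwa [show -f (Fin.last n) - 1 • f 0 = f 1 by
          rw [one_smul]; linear_combination (exp := 1) -hs] at hzk
      · apply hn10
        rwa [show -f (Fin.last n) - 2 • f 0 = f 1 - f 0 by
          rw [two_smul]; linear_combination (exp := 1) -hs] at hzk
    · exact wt_up hA hv h3 i0L hk ⟨z, hzk⟩
  have hk1 : ∀ k : ℕ, p.Pi (-f (Fin.last n) - k • -f 0) → k = 1 := by
    intro k hk
    rcases Nat.eq_zero_or_pos k with h2 | h2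
    · subst h2
      rw [zero_smul, sub_zero] at hk
      exact absurd hk hplam
    · exact (wt_line H hA hv hc ⟨z, h0⟩ hca h2 ⟨p, hk⟩).1
  have hpw : p.Pi (f 0 - f (Fin.last n)) := by
    obtain ⟨k, hk⟩ := fwd H hφ hz hla
    have h2 := hk1 k hk
    subst h2
    rwa [show -f (Fin.last n) - 1 • -f 0 = f 0 - f (Fin.last n) by
      rw [one_smul]; abel] at hk
  obtain ⟨D, hD, hDv, hne⟩ := fC p z m φ (caseA_pos H hA hc hneg hφ hplam) hz hpw
    (caseA_f1 H hA hc hneg hφ nf1) (caseA_b H hA hn10 hz hφ hk1) hφ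
  exact H490.curve_u' H hφ hD hDv hl hz (k0 := 1) hk1 hne (hbad D hD hDv)

/-- Only `-f 1` is a negative weight at `z`. -/
theorem caseB (H : Hyp 𝒜) (hA : AC 𝒜 N n f β E F) (hv : NoVec 𝒜 n f) (hc : Ch2 𝒜 n f c)
    (fB : ∀ (p q : FP 𝒜) (m : ℕ) (φ : R →ₐ[ℂ] Polynomial ℂ), Pos c p → q.Pi (-f 1) →
      (∀ ψ, q.Pi ψ → ψ ≠ -f 1 → 0 < c ψ) → ¬ q.Pi (f 1 - f (Fin.last n)) →
      Curve q p (-f 1) m φ → ∃ D : VF R, Glob D ∧ HV 𝒜 (-f (Fin.last n)) D ∧ NZ φ D)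
    (fD : n = 2 → ∀ (p z : FP 𝒜) (m : ℕ) (φ : R →ₐ[ℂ] Polynomial ℂ), Pos c p → z.Pi (-f 1) →
      (∀ ψ, z.Pi ψ → ψ ≠ -f 1 → 0 < c ψ) → z.Pi (-f (Fin.last n)) → p.Pi (-f (Fin.last n)) →
      Curve z p (-f 1) m φ → Rl 𝒜 z (-f (Fin.last n))) {z : FP 𝒜}
    (hz : z.Pi (-f (Fin.last n)))
    (hbad : ∀ D : VF R, Glob D → HV 𝒜 (-f (Fin.last n)) D → ValV z.q D 0)
    (ih : ∀ (z' : FP 𝒜) (a : Fin r → ℤ) (m : ℕ) (φ : R →ₐ[ℂ] Polynomial ℂ), Curve z z' a m φ →
      c a < 0 → z'.Pi (-f (Fin.last n)) → Rl 𝒜 z' (-f (Fin.last n)))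
    (hneg : ∀ a, z.Pi a → c a < 0 → a = -f 0 ∨ a = -f 1) (h0 : ¬ z.Pi (-f 0))
    (h1 : z.Pi (-f 1)) : False := by
  have hn := hA.n2
  have hN := hA.N0
  have i01 := ne01 hn
  have i0L := ne0L hn
  have i1L := ne1L hn
  obtain ⟨c1, c01, c0, cL⟩ := ch2_signs hn hc
  obtain ⟨p, m, φ, hφ⟩ := exists_curve H z h1
  have hca : c (-f 1) < 0 := by rw [map_neg]; omega
  have hla : -f (Fin.last n) ≠ -f 1 := by
    intro h
    have h2 := congrArg c (neg_injective h)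
    omega
  have hl := ne_smul_of_pi H hz h1 hla
  have hp1 : p.Pi (f 1) := by
    have h2 := hφ.ya'
    rwa [neg_neg] at h2
  have hpos : Pos c p := by
    intro ψ hψ
    by_contra h2
    have hcψ : c ψ < 0 := by omega
    have hne : ψ ≠ f 1 := by
      rintro rfl
      omega
    obtain ⟨k, hk⟩ := bwd H hφ hψ (by rwa [neg_neg])
    have hck : c (ψ + k • -f 1) = c ψ - k * c (f 1) := by
      rw [map_add, map_nsmul, map_neg, nsmul_eq_mul]
      ring
    have hk0 : (0 : ℤ) ≤ k := Int.natCast_nonneg k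
    rcases hneg _ hk (by rw [hck]; nlinarith) with h3 | h3
    · rw [h3] at hk
      exact h0 hk
    · refine ne_smul_of_pi H hψ hp1 hne ((k : ℤ) - 1) ?_
      have h4 : ψ = -f 1 + k • f 1 := by
        rw [← h3, smul_neg]
        abel
      rw [h4, sub_smul, one_smul, natCast_zsmul]
      abel
  have hoth : ∀ ψ, z.Pi ψ → ψ ≠ -f 1 → 0 < c ψ := by
    intro ψ hψ hne
    by_contra h2
    have h3 := hc.ne ψ ⟨z, hψ⟩
    rcases hneg ψ hψ (by omega) with h4 | h4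
    · rw [h4] at hψ
      exact h0 hψ
    · exact hne h4
  by_cases hpl : p.Pi (-f (Fin.last n))
  · rcases Nat.lt_or_ge n 3 with h3 | h3
    · obtain ⟨D, hD, hDv, hD0⟩ := fD (by omega) p z m φ hpos h1 hoth hz hpl hφ
      exact hD0 (hbad D hD hDv)
    · obtain ⟨D, hD, hDv, hD0⟩ := ih p _ m φ hφ hca hpl
      obtain ⟨k, hk, hzk⟩ := curve_ta H hφ hD hDv hl (hbad D hD hDv) hD0
      rw [show -f (Fin.last n) + k • -f 1 = -f (Fin.last n) - k • f 1 by
        rw [smul_neg, sub_eq_add_neg]] at hzk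
      exact wt_up hA hv h3 i1L hk ⟨z, hzk⟩
  · have hk1 : ∀ k : ℕ, p.Pi (-f (Fin.last n) - k • -f 1) → k = 1 := by
      intro k hk
      rcases Nat.eq_zero_or_pos k with h2 | h2
      · subst h2
        rw [zero_smul, sub_zero] at hk
        exact absurd hk hpl
      · exact (wt_line H hA hv hc ⟨z, h1⟩ hca h2 ⟨p, hk⟩).1
    have hnb : ¬ z.Pi (f 1 - f (Fin.last n)) := by
      intro h2
      have hr := hA.root 1 (Fin.last n) i1L
      exact two_up H hφ hl hz hr.globE (by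
        rw [show -f (Fin.last n) - -f 1 = f 1 - f (Fin.last n) by abel]
        exact hr.hvE) (hr.atE z h2) hk1
    obtain ⟨D, hD, hDv, hne⟩ := fB p z m φ hpos h1 hoth hnb hφ
    exact H490.curve_u' H hφ hD hDv hl hz (k0 := 1) hk1 hne (hbad D hD hDv)

/-- The induction. -/
theorem real_top (H : Hyp 𝒜) (hA : AC 𝒜 N n f β E F) (hv : NoVec 𝒜 n f) (hc : Ch2 𝒜 n f c)
    (two : ∀ p : FP 𝒜, Pos c p → p.Pi (-f (Fin.last n)) → Rl 𝒜 p (-f (Fin.last n)))
    (fB : ∀ (p q : FP 𝒜) (m : ℕ) (φ : R →ₐ[ℂ] Polynomial ℂ), Pos c p → q.Pi (-f 1) →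
      (∀ ψ, q.Pi ψ → ψ ≠ -f 1 → 0 < c ψ) → ¬ q.Pi (f 1 - f (Fin.last n)) →
      Curve q p (-f 1) m φ → ∃ D : VF R, Glob D ∧ HV 𝒜 (-f (Fin.last n)) D ∧ NZ φ D)
    (fC : ∀ (p q : FP 𝒜) (m : ℕ) (φ : R →ₐ[ℂ] Polynomial ℂ), Pos c p →
      q.Pi (-f (Fin.last n)) → p.Pi (f 0 - f (Fin.last n)) → ¬ p.Pi (f 1) →
      ¬ p.Pi (f 1 - f (Fin.last n)) → Curve q p (-f 0) m φ →
      ∃ D : VF R, Glob D ∧ HV 𝒜 (-f (Fin.last n)) D ∧ NZ φ D)
    (fD : n = 2 → ∀ (p z : FP 𝒜) (m : ℕ) (φ : R →ₐ[ℂ] Polynomial ℂ), Pos c p → z.Pi (-f 1) →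
      (∀ ψ, z.Pi ψ → ψ ≠ -f 1 → 0 < c ψ) → z.Pi (-f (Fin.last n)) → p.Pi (-f (Fin.last n)) →
      Curve z p (-f 1) m φ → Rl 𝒜 z (-f (Fin.last n))) :
    ∀ z : FP 𝒜, z.Pi (-f (Fin.last n)) → Rl 𝒜 z (-f (Fin.last n)) := by
  have hn := hA.n2
  have hN := hA.N0
  have i01 := ne01 hn
  have i0L := ne0L hn
  have i1L := ne1L hn
  obtain ⟨c1, c01, c0, cL⟩ := ch2_signs hn hc
  have clam : 0 < c (-f (Fin.last n)) := by rw [map_neg]; omega
  obtain ⟨B, hB⟩ := (((finite_weights H.hX).image c).bddBelow)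
  have hB' : ∀ z : FP 𝒜, B ≤ c z.ν := fun z => hB ⟨z.ν, H170.nu_mem H z, rfl⟩
  suffices key : ∀ (t : ℕ) (z : FP 𝒜), z.Pi (-f (Fin.last n)) → c z.ν < B + t →
      Rl 𝒜 z (-f (Fin.last n)) by
    intro z hz
    refine key (c z.ν - B + 1).toNat z hz ?_
    have h1 := hB' z
    have h2 := Int.toNat_of_nonneg (a := c z.ν - B + 1) (by omega)
    omega
  intro t
  induction t with
  | zero =>
    intro z _ h
    have h1 := hB' z
    rw [Nat.cast_zero, add_zero] at h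
    exact absurd h (not_lt.2 h1)
  | succ t IH =>
    intro z hz ht
    by_contra hcon
    have hbad : ∀ D : VF R, Glob D → HV 𝒜 (-f (Fin.last n)) D → ValV z.q D 0 := by
      intro D hD hDv
      by_contra h
      exact hcon ⟨D, hD, hDv, h⟩
    have ih : ∀ (z' : FP 𝒜) (a : Fin r → ℤ) (m : ℕ) (φ : R →ₐ[ℂ] Polynomial ℂ),
        Curve z z' a m φ → c a < 0 → z'.Pi (-f (Fin.last n)) → Rl 𝒜 z' (-f (Fin.last n)) := by
      intro z' a m φ hφ ha h1
      refine IH z' h1 ?_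
      have h2 : (1 : ℤ) ≤ m := by exact_mod_cast hφ.n1
      rw [hφ.nu, map_add, map_nsmul, nsmul_eq_mul]
      push_cast at ht
      nlinarith
    -- the negative weights at `z`
    have hneg : ∀ a, z.Pi a → c a < 0 → a = -f 0 ∨ a = -f 1 := by
      intro a ha hca
      by_contra hne
      obtain ⟨z', m, φ, hφ⟩ := exists_curve H z ha
      have hla : -f (Fin.last n) ≠ a := by
        rintro h
        rw [← h] at hca
        omega
      have hk0 : ∀ k : ℕ, Wt 𝒜 (-f (Fin.last n) - k • a) → k = 0 := by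
        intro k hk
        by_contra h0
        exact hne (wt_line H hA hv hc ⟨z, ha⟩ hca (by omega) hk).2
      obtain ⟨k, hk⟩ := fwd H hφ hz hla
      have h0 := hk0 k ⟨z', hk⟩
      subst h0
      rw [zero_smul, sub_zero] at hk
      obtain ⟨D, hD, hDv, hD0⟩ := ih z' a m φ hφ hca hk
      exact H490.curve_u' H hφ hD hDv (ne_smul_of_pi H hz ha hla) hz (k0 := 0)
        (fun k hk => hk0 k ⟨z', hk⟩) (H495.ne_of_end hφ hD hDv (Or.inr hD0)) (hbad D hD hDv)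
    have hn10 : ¬ z.Pi (f 1 - f 0) := by
      intro h
      rcases hneg _ h (by rw [map_sub]; omega) with h1 | h1
      · have h2 := congrArg (β 0 1) h1
        rw [map_sub, map_neg, be_l hA i01, be_r hA i01] at h2
        omega
      · have h2 := congrArg (β 0 (Fin.last n)) h1
        rw [map_sub, map_neg, be_l hA i0L, be_o hA i0L i01.symm i1L] at h2
        omega
    by_cases h0 : z.Pi (-f 0)
    · exact caseA H hA hv hc fC hz hbad ih hneg hn10 h0
    · by_cases h1 : z.Pi (-f 1)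
      · exact caseB H hA hv hc fB fD hz hbad ih hneg h0 h1
      · -- the source
        refine hcon (two z (fun ψ hψ => ?_) hz)
        by_contra h2
        rcases hneg ψ hψ (by omega) with h3 | h3
        · rw [h3] at hψ
          exact h0 hψ
        · rw [h3] at hψ
          exact h1 hψ

end main

end Vale.Agent.P280.N2
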