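import Vale.Agent.P280.N2.Rel
import Vale.Agent.P280.N.A14
import Vale.Agent.P280.H340.Wall
import Vale.Agent.P280.H900.Polar
import Vale.Agent.P280.H399.WallPole
import Vale.Agent.P280.H144.TwoX
import Vale.Agent.P280.H144.LW
import Vale.Agent.P280.H79.B3Src

/-! P280, stage 2: the fields of weight `-f L` at the source. -/

open DirectSum Vale.Agent.P280.T Vale.Agent.P280.H127 Vale.Agent.P280.N Vale.Agent.P280.N.H989
open Vale.Agent.P280.H340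

namespace Vale.Agent.P280.N2

variable {r : ℕ} {R : Type} [CommRing R] [IsDomain R] [Algebra ℂ R]
  {𝒜 : ℕ × (Fin r → ℤ) → Submodule ℂ R} [GradedAlgebra 𝒜]

/-- `y` is a wall point for `b`: `-b` is its only weight which is not `c`-positive. -/
def Wall (c : (Fin r → ℤ) →+ ℤ) (b : Fin r → ℤ) (y : FP 𝒜) : Prop :=
  y.Pi (-b) ∧ ∀ ψ, y.Pi ψ → ψ ≠ -b → 0 < c ψ

/-- What is needed of a wall. -/
structure WallOK (𝒜 : ℕ × (Fin r → ℤ) → Submodule ℂ R) (c : (Fin r → ℤ) →+ ℤ)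
    (b : Fin r → ℤ) : Prop where
  uniq : ∀ y y' : FP 𝒜, Wall c b y → Wall c b y' → SamePoint 𝒜 y.q y'.q
  field : ∀ y : FP 𝒜, Wall c b y → ∀ (lam : Fin r → ℤ) (v : VF R), HV 𝒜 lam v →
    (∀ y0 : FP 𝒜, Pos c y0 → RgV y0.q v) →
      ∀ d z, Crd y (-b) d z → ∃ k : ℕ, RgV y.q ((iK z) ^ k • v)
  fn : ∀ y : FP 𝒜, Wall c b y → ∀ (m : Fin r → ℤ) (x : FractionRing R), HK 𝒜 0 m x →
    (∀ y0 : FP 𝒜, Pos c y0 → Rg y0.q x) →
      ∀ d z, Crd y (-b) d z → ∃ k : ℕ, Rg y.q ((iK z) ^ k * x)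

theorem wallOK (H : Hyp 𝒜) (l c : (Fin r → ℤ) →+ ℤ) (hc : ∀ μ, Wt 𝒜 μ → c μ ≠ 0)
    (hlc : ∀ μ, Wt 𝒜 μ → (0 < l μ → 0 < c μ) ∧ (l μ < 0 → c μ < 0)) {b : Fin r → ℤ}
    (hcb : 0 < c b) (hl0 : ∀ μ, Wt 𝒜 μ → l μ = 0 → μ = b ∨ μ = -b) (hlb : l b = 0) :
    WallOK 𝒜 c b := by
  obtain ⟨B, hB0, hB⟩ := C07.wt_bound H c
  have key : ∀ μ, Wt 𝒜 μ → l μ ≠ 0 → ((B + 1) • l - c) μ ≠ 0 := by
    intro μ hμ hl h
    have h1 := hB μ hμ
    rw [abs_le] at h1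
    rw [AddMonoidHom.sub_apply, AddMonoidHom.smul_apply, smul_eq_mul] at h
    rcases lt_or_gt_of_ne hl with h2 | h2
    · nlinarith
    · nlinarith
  have hne : ∀ μ, Wt 𝒜 μ → ((B + 1) • l - c) μ ≠ 0 := by
    intro μ hμ
    by_cases hl : l μ = 0
    · rw [AddMonoidHom.sub_apply, AddMonoidHom.smul_apply, smul_eq_mul, hl, mul_zero, zero_sub]
      exact neg_ne_zero.2 (hc μ hμ)
    · exact key μ hμ hl
  have hpos : ∀ y : FP 𝒜, Wall c b y → Pos ((B + 1) • l - c) y := by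
    intro y hy ψ hψ
    rw [AddMonoidHom.sub_apply, AddMonoidHom.smul_apply, smul_eq_mul]
    by_cases h1 : ψ = -b
    · rw [h1, map_neg, map_neg, hlb]
      omega
    · have h2 := hy.2 ψ hψ h1
      have h3 : l ψ ≠ 0 := by
        intro h3
        rcases hl0 ψ ⟨y, hψ⟩ h3 with h4 | h4
        · rw [h4] at hψ
          exact H170.not_pi_neg H hψ hy.1
        · exact h1 h4
      have h4 : 0 < l ψ := by
        by_contra h4
        have h5 := (hlc ψ ⟨y, hψ⟩).2 (lt_of_le_of_ne (not_lt.1 h4) h3)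
        omega
      have h5 := hB ψ ⟨y, hψ⟩
      rw [abs_le] at h5
      nlinarith
  have huniq : ∀ y y' : FP 𝒜, Wall c b y → Wall c b y' → SamePoint 𝒜 y.q y'.q :=
    fun y y' h h' => pos_unique H _ hne (hpos y h) (hpos y' h')
  exact
    { uniq := huniq
      field := fun y hy lam v hv h0 => H399.wall_field H l c hc hlc hcb hl0 hy.1 hy.2
        (fun y1 h1 h2 => huniq y1 y ⟨h1, h2⟩ hy) hlb hv h0
      fn := fun y hy m x hx h0 => H399.wall_fun H l c hc hlc hcb hl0 hy.1 hy.2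
        (fun y1 h1 h2 => huniq y1 y ⟨h1, h2⟩ hy) hlb hx h0 }

omit [GradedAlgebra 𝒜] in
theorem sub_smul_vf (a b : FractionRing R) (w : VF R) : (a - b) • w = a • w - b • w := by
  refine Derivation.ext fun x => ?_
  simp only [Derivation.sub_apply, Derivation.smul_apply, smul_eq_mul]
  ring

/-- Regularity of `z ^ k * x` at proportional points. -/
theorem same_rg_pow (H : Hyp 𝒜) {y y' : FP 𝒜} (h : SamePoint 𝒜 y.q y'.q) {e : ℤ}
    {μ : Fin r → ℤ} {x : FractionRing R} (hx : HK 𝒜 e μ x) {d : ℕ} {m : Fin r → ℤ} {z : R}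
    (hz : z ∈ 𝒜 (d, m)) {k : ℕ} (hr : Rg y.q ((iK z) ^ k * x)) : Rg y'.q ((iK z) ^ k * x) := by
  have hzk : HK 𝒜 ((k * d : ℕ) : ℤ) (k • m) (iK z ^ k) := by
    have h1 := SetLike.pow_mem_graded k hz
    rw [← iK_pow]
    exact (HK.ofR (show z ^ k ∈ 𝒜 (k * d, k • m) from h1)).cast rfl rfl
  exact A04.same_rg H h (hzk.mul hx) hr

/-- The direction of a wall point is a weight at the source. -/
theorem wall_pi (H : Hyp 𝒜) {c : (Fin r → ℤ) →+ ℤ} (hc : ∀ μ, Wt 𝒜 μ → c μ ≠ 0)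
    {b : Fin r → ℤ} (hcb : 0 < c b) {y p : FP 𝒜} (hy : Wall c b y) (hp : Pos c p) : p.Pi b := by
  obtain ⟨y', m, φ, hφ⟩ := exists_curve H y hy.1
  have h1 := pos_of_one_neg H hφ hcb hy.2
  have h2 := hφ.ya'
  rw [neg_neg] at h2
  exact ((same_pi (pos_unique H c hc hp h1) H).2 b).2 h2

section
variable {N : ℤ} {n : ℕ} {f : Fin (n + 1) → Fin r → ℤ}
  {β : Fin (n + 1) → Fin (n + 1) → ((Fin r → ℤ) →+ ℤ)} {E F : Fin (n + 1) → Fin (n + 1) → VF R}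
  {c : (Fin r → ℤ) →+ ℤ}

omit [GradedAlgebra 𝒜] in
theorem c01 (hA : AC 𝒜 N n f β E F) (hc : Ch2 𝒜 n f c) : 0 < c (f 0 - f 1) := by
  have v1 := one_val hA.n2
  have v0 : ((0 : Fin (n + 1)) : ℕ) = 0 := rfl
  have := hc.ord 0 1 (by rw [Fin.lt_def]; omega)
  rw [map_sub]
  omega

omit [GradedAlgebra 𝒜] in
theorem c0 (hA : AC 𝒜 N n f β E F) (hc : Ch2 𝒜 n f c) : 0 < c (f 0) := by
  have := c01 hA hc
  have := hc.pos
  rw [map_sub] at *
  omega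

theorem wallA (H : Hyp 𝒜) (hA : AC 𝒜 N n f β E F) (hv : NoVec 𝒜 n f) (hc : Ch2 𝒜 n f c) :
    WallOK 𝒜 c (f 1) :=
  wallOK H (H144.lA N f β c) c hc.ne (H144.lA_sign hA hv hc) hc.pos
    (fun μ hμ h => H144.lA_zero hA hv hc hμ h) (by
      rw [H144.lA_f hA]
      simp [(z01 hA.n2).symm])

theorem wallB (H : Hyp 𝒜) (hA : AC 𝒜 N n f β E F) (hv : NoVec 𝒜 n f) (hc : Ch2 𝒜 n f c) :
    WallOK 𝒜 c (f 0 - f 1) :=
  wallOK H (H144.lB N f β c) c hc.ne (H144.lB_sign hA hv hc) (c01 hA hc)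
    (fun μ hμ h => H144.lB_zero hA hv hc hμ h) (by
      rw [map_sub, H144.lB_f hA, H144.lB_f hA]
      simp)

/-- The monomials of the functions of weight `f 1` at a wall. -/
theorem uniq1 (H : Hyp 𝒜) (hA : AC 𝒜 N n f β E F) (hv : NoVec 𝒜 n f) (hc : Ch2 𝒜 n f c)
    {y : FP 𝒜} {b : Fin r → ℤ} (hcb : 0 < c b) (hy : Wall c b y) (l : ℕ)
    (M : List (Fin r → ℤ)) (hl : 1 ≤ l) (hM : ∀ ω ∈ M, y.Pi ω ∧ ω ≠ -b)
    (he : f 1 = (0 : ℤ) • y.ν + l • b + M.sum) : l = 1 ∧ M.length ≤ 1 := by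
  rw [zero_smul, zero_add] at he
  obtain ⟨h1, -, h2⟩ := rel_fun1 H hA hv hc hy.1 hcb hy.2 hl hM he
  exact ⟨h1, by rw [h2]; simp⟩

/-- The monomials of the functions of weight `f 0` at a wall. -/
theorem uniq0 (H : Hyp 𝒜) (hA : AC 𝒜 N n f β E F) (hv : NoVec 𝒜 n f) (hc : Ch2 𝒜 n f c)
    {y : FP 𝒜} {b : Fin r → ℤ} (hcb : 0 < c b) (hy : Wall c b y) (l : ℕ)
    (M : List (Fin r → ℤ)) (hl : 1 ≤ l) (hM : ∀ ω ∈ M, y.Pi ω ∧ ω ≠ -b)
    (he : f 0 = (0 : ℤ) • y.ν + l • b + M.sum) : l = 1 ∧ M.length ≤ 1 := by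
  rw [zero_smul, zero_add] at he
  obtain ⟨h1, ⟨-, h2⟩ | ⟨-, h2⟩⟩ := rel_fun0 H hA hv hc hy.1 hcb hy.2 hl hM he <;>
    exact ⟨h1, by rw [h2]; simp⟩

/-- A field which is regular at the sources and at the walls is global. -/
theorem glob_of_walls (H : Hyp 𝒜) (hA : AC 𝒜 N n f β E F) (hv : NoVec 𝒜 n f)
    (hc : Ch2 𝒜 n f c) {v : VF R} (hvv : HV 𝒜 (-f (Fin.last n)) v)
    (h0 : ∀ y0 : FP 𝒜, Pos c y0 → RgV y0.q v) (h1 : ∀ y : FP 𝒜, Wall c (f 1) y → RgV y.q v)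
    (h2 : ∀ y : FP 𝒜, Wall c (f 0 - f 1) y → RgV y.q v) : Glob v := by
  by_contra hnot
  have hL : -f (Fin.last n) ≠ 0 := by
    intro h
    have h3 := hc.neg (Fin.last n) (by simpa using hA.n2)
    rw [neg_eq_zero.1 h, map_zero] at h3
    exact lt_irrefl _ h3
  obtain ⟨y, b, k1, k2, k3, k4, k5⟩ := H399.lowest_field H c hc.ne hL hvv h0 hnot
  obtain ⟨d, z, hz⟩ := XF.exists_coord H y k1
  obtain ⟨k, hk⟩ := k5 d z hz
  have hW : Ind y (fun i : Empty => (i.elim : VF R)) (fun i : Empty => i.elim) :=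
    ⟨fun i => i.elim, fun i => i.elim, fun i => i.elim, fun i => i.elim, fun i => i.elim⟩
  have h3 := H900.lemmaM H y hW c hz (fun ψ hψ hne => (k3 ψ hψ hne).le) k2 (by
    intro l ψ M hl hψ hM he
    rcases (rel_field H hA hv hc k1 k2 k3 hl (hψ.imp_right fun h => h.1) hM he).2 with
      ⟨h, -⟩ | ⟨h, -⟩ | ⟨h, -⟩
    · subst h
      exact k4 (h1 y ⟨k1, k3⟩)
    · subst h
      exact k4 (h1 y ⟨k1, k3⟩)
    · subst h
      exact k4 (h2 y ⟨k1, k3⟩)) hvv k hk.rm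
  rw [Set.range_eq_empty] at h3
  exact k4 (rm_empty.1 h3)

/-- A function of weight `f 1` has a pole at the wall `f 1`. -/
theorem pole1 (H : Hyp 𝒜) (hA : AC 𝒜 N n f β E F) (hv : NoVec 𝒜 n f) (hc : Ch2 𝒜 n f c)
    {x : FractionRing R} (hx : HK 𝒜 0 (f 1) x) (hx0 : x ≠ 0)
    (h0 : ∀ y0 : FP 𝒜, Pos c y0 → Rg y0.q x) : ∃ y : FP 𝒜, Wall c (f 1) y ∧ ¬ Rg y.q x := by
  have hm : f 1 ≠ 0 := fun h => by
    have := hc.pos
    rw [h, map_zero] at this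
    exact lt_irrefl _ this
  obtain ⟨y, b, k1, k2, k3, k4, k5⟩ := H399.lowest_fun H c hc.ne hm hx hx0 h0
  obtain ⟨d, z, hz⟩ := XF.exists_coord H y k1
  obtain ⟨k, hk⟩ := k5 d z hz
  obtain ⟨l, M, hl, hM, he⟩ := H900.xmon H y hz hx hk k4
  rw [zero_smul, zero_add] at he
  obtain ⟨-, h, -⟩ := rel_fun1 H hA hv hc k1 k2 k3 hl hM he
  subst h
  exact ⟨y, ⟨k1, k3⟩, k4⟩

/-- A function of weight `f 0` has a pole at one of the two walls. -/
theorem pole0 (H : Hyp 𝒜) (hA : AC 𝒜 N n f β E F) (hv : NoVec 𝒜 n f) (hc : Ch2 𝒜 n f c)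
    {x : FractionRing R} (hx : HK 𝒜 0 (f 0) x) (hx0 : x ≠ 0)
    (h0 : ∀ y0 : FP 𝒜, Pos c y0 → Rg y0.q x) :
    ∃ y : FP 𝒜, (Wall c (f 1) y ∨ Wall c (f 0 - f 1) y) ∧ ¬ Rg y.q x := by
  have hm : f 0 ≠ 0 := fun h => by
    have := c0 hA hc
    rw [h, map_zero] at this
    exact lt_irrefl _ this
  obtain ⟨y, b, k1, k2, k3, k4, k5⟩ := H399.lowest_fun H c hc.ne hm hx hx0 h0
  obtain ⟨d, z, hz⟩ := XF.exists_coord H y k1
  obtain ⟨k, hk⟩ := k5 d z hz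
  obtain ⟨l, M, hl, hM, he⟩ := H900.xmon H y hz hx hk k4
  rw [zero_smul, zero_add] at he
  obtain ⟨-, ⟨h, -⟩ | ⟨h, -⟩⟩ := rel_fun0 H hA hv hc k1 k2 k3 hl hM he
  · subst h
    exact ⟨y, Or.inl ⟨k1, k3⟩, k4⟩
  · subst h
    exact ⟨y, Or.inr ⟨k1, k3⟩, k4⟩

/-- `f 0` is a weight at the source if `f 1` is. -/
theorem pi0_of_pi1 (H : Hyp 𝒜) (hA : AC 𝒜 N n f β E F) (hc : Ch2 𝒜 n f c) {p : FP 𝒜}
    (hp : Pos c p) (h1 : p.Pi (f 1)) : p.Pi (f 0) := by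
  have h01 := z01 hA.n2
  have hr := hA.root 0 1 h01
  have h2 := H155.nef_string0 H hA.N0 (H155.toRoot0 hr) hr.int p (fun h => by
    have h3 := hp _ h
    have h4 := c01 hA hc
    rw [map_neg] at h3
    omega) h1 (by
    rw [hA.be 0 1 1 h01, if_neg h01.symm, if_pos rfl]
    have := hA.N0
    omega)
  rwa [add_sub_cancel] at h2

/-- `f 0` is a weight at the source if `f 1` is one at the wall `f 0 - f 1`. -/
theorem pi0_of_wall (H : Hyp 𝒜) (hA : AC 𝒜 N n f β E F) (hc : Ch2 𝒜 n f c) {y p : FP 𝒜}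
    (hy : Wall c (f 0 - f 1) y) (hp : Pos c p) (h1 : y.Pi (f 1)) : p.Pi (f 0) := by
  have h01 := z01 hA.n2
  have hr := hA.root 0 1 h01
  have hN := hA.N0
  obtain ⟨y', m, φ, hφ⟩ := exists_curve H y hy.1
  have hp' := pos_of_one_neg H hφ (c01 hA hc) hy.2
  obtain ⟨φ', hφ', -⟩ := H490.exists_rev H hφ
  have hb1 : β 0 1 (f 1) = -N := by
    rw [hA.be 0 1 1 h01, if_neg h01.symm, if_pos rfl, zero_sub]
  have hmul : ∀ k : ℤ, f 1 ≠ k • (f 0 - f 1) := by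
    intro k hk
    have h1 : β 0 1 (f 1) = k * (2 * N) := by rw [hk, map_zsmul, hr.two, smul_eq_mul]
    have h2 : (2 * k + 1) * N = 0 := by linear_combination -h1 + hb1
    rcases mul_eq_zero.1 h2 with h3 | h3 <;> omega
  obtain ⟨k, hk⟩ := curve_wt H hφ' (μ := f 1) (fun k hk => hmul k (by simpa using hk)) h1
  rw [neg_neg] at hk
  have h2 : β 0 1 (f 1 + (k : ℤ) • (f 0 - f 1)) = -N + k * (2 * N) := by
    rw [map_add, map_zsmul, hr.two, hb1, smul_eq_mul]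
  have h3 := hr.bd _ ⟨y', hk⟩
    (fun h => hmul (1 - k) ((eq_sub_of_add_eq h).trans (by rw [sub_smul, one_smul])))
    (fun h => hmul (-1 - k)
      ((eq_sub_of_add_eq h).trans (by rw [sub_smul, neg_smul, one_smul])))
  rw [h2, abs_le] at h3
  have h4 : (k : ℤ) ≤ 1 := by nlinarith [h3.2]
  have h5 : k = 0 ∨ k = 1 := by omega
  have hs := (same_pi (pos_unique H c hc.ne hp hp') H).2
  rcases h5 with rfl | rfl
  · refine pi0_of_pi1 H hA hc hp ((hs _).2 ?_)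
    simpa using hk
  · refine (hs _).2 ?_
    simpa using hk

/-- Interpolation: prescribed poles of weight `f 0` at the two walls. -/
theorem interp (H : Hyp 𝒜) (hA : AC 𝒜 N n f β E F) (hv : NoVec 𝒜 n f) (hc : Ch2 𝒜 n f c)
    {p : FP 𝒜} (hp : Pos c p) (gA gB : FractionRing R) (hgA : HK 𝒜 0 (f 0) gA)
    (hgB : HK 𝒜 0 (f 0) gB)
    (hkA : ∀ y : FP 𝒜, Wall c (f 1) y → ∀ d z, Crd y (-f 1) d z →
      ∃ k : ℕ, Rg y.q ((iK z) ^ k * gA))
    (hkB : ∀ y : FP 𝒜, Wall c (f 0 - f 1) y → ∀ d z, Crd y (-(f 0 - f 1)) d z →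
      ∃ k : ℕ, Rg y.q ((iK z) ^ k * gB)) :
    ∃ x : FractionRing R, HK 𝒜 0 (f 0) x ∧ Rg p.q x ∧
      (∀ y : FP 𝒜, Wall c (f 1) y → Rg y.q (gA - x)) ∧
      ∀ y : FP 𝒜, Wall c (f 0 - f 1) y → Rg y.q (gB - x) := by
  have wA := wallA H hA hv hc
  have wB := wallB H hA hv hc
  have c1 := hc.pos
  have ca := c01 hA hc
  have hsrc : ∀ (m : Fin r → ℤ) (x : FractionRing R), HK 𝒜 0 m x → Rg p.q x →
      ∀ y0 : FP 𝒜, Pos c y0 → Rg y0.q x := fun m x hx hr y0 hy0 =>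
    A04.same_rg H (pos_unique H c hc.ne hp hy0) hx hr
  -- one pole is enough, at each wall
  have stepA : ∀ x : FractionRing R, HK 𝒜 0 (f 0) x → Rg p.q x →
      ∀ yA : FP 𝒜, Wall c (f 1) yA → ¬ Rg yA.q x →
      ∃ α : ℂ, ∀ y : FP 𝒜, Wall c (f 1) y → Rg y.q (gA - α • x) := by
    intro x hx hxp yA hyA hn
    obtain ⟨d, z, hz⟩ := XF.exists_coord H yA hyA.1
    obtain ⟨α, hα⟩ := H900.polar_one H yA c hyA.2 hz hgA hx (hkA yA hyA d z hz)
      (wA.fn yA hyA _ x hx (hsrc _ x hx hxp) d z hz) (uniq0 H hA hv hc c1 hyA) hn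
    exact ⟨α, fun y hy => A04.same_rg H (wA.uniq yA y hyA hy) (hgA.sub (hx.smul α)) hα⟩
  have stepB : ∀ x : FractionRing R, HK 𝒜 0 (f 0) x → Rg p.q x →
      ∀ yB : FP 𝒜, Wall c (f 0 - f 1) yB → ¬ Rg yB.q x →
      ∃ α : ℂ, ∀ y : FP 𝒜, Wall c (f 0 - f 1) y → Rg y.q (gB - α • x) := by
    intro x hx hxp yB hyB hn
    obtain ⟨d, z, hz⟩ := XF.exists_coord H yB hyB.1
    obtain ⟨α, hα⟩ := H900.polar_one H yB c hyB.2 hz hgB hx (hkB yB hyB d z hz)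
      (wB.fn yB hyB _ x hx (hsrc _ x hx hxp) d z hz) (uniq0 H hA hv hc ca hyB) hn
    exact ⟨α, fun y hy => A04.same_rg H (wB.uniq yB y hyB hy) (hgB.sub (hx.smul α)) hα⟩
  by_cases hexA : ∃ yA : FP 𝒜, Wall c (f 1) yA
  · obtain ⟨yA, hyA⟩ := hexA
    have hp1 := wall_pi H hc.ne c1 hyA hp
    have hp0 := pi0_of_pi1 H hA hc hp hp1
    by_cases hexB : ∃ yB : FP 𝒜, Wall c (f 0 - f 1) yB
    · -- both walls
      obtain ⟨yB, hyB⟩ := hexB
      have hpa := wall_pi H hc.ne ca hyB hp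
      have e01 : f 0 = f 1 + (f 0 - f 1) := (add_sub_cancel _ _).symm
      obtain ⟨x0, x1, xa, k0, k1, ka, r0, r1, ra, -, hind⟩ :=
        H144.fun_indep H p hp1 hpa (by rwa [← e01])
      have k0' : HK 𝒜 0 (f 0) x0 := k0.cast rfl e01.symm
      have k1a : HK 𝒜 0 (f 0) (x1 * xa) := (k1.mul ka).cast rfl e01.symm
      have r1a : Rg p.q (x1 * xa) := r1.mul ra
      -- a combination which is regular at `yB`
      obtain ⟨dB, zB, hzB⟩ := XF.exists_coord H yB hyB.1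
      obtain ⟨α, α', hne, hrB⟩ := H900.polar_sym H yB c hyB.2 hzB k0' k1a
        (wB.fn yB hyB _ _ k0' (hsrc _ _ k0' r0) dB zB hzB)
        (wB.fn yB hyB _ _ k1a (hsrc _ _ k1a r1a) dB zB hzB) (uniq0 H hA hv hc ca hyB)
      obtain ⟨dA, zA, hzA⟩ := XF.exists_coord H yA hyA.1
      obtain ⟨γ, γ', hne', hrA⟩ := H900.polar_sym H yA c hyA.2 hzA k0' k1a
        (wA.fn yA hyA _ _ k0' (hsrc _ _ k0' r0) dA zA hzA)
        (wA.fn yA hyA _ _ k1a (hsrc _ _ k1a r1a) dA zA hzA) (uniq0 H hA hv hc c1 hyA)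
      set xA := α • x0 + α' • (x1 * xa) with hxA
      set xB := γ • x0 + γ' • (x1 * xa) with hxB
      have hxA0 : xA ≠ 0 := fun h => by
        obtain ⟨h1, h2⟩ := hind α α' h
        rcases hne with h3 | h3
        · exact h3 h1
        · exact h3 h2
      have hxB0 : xB ≠ 0 := fun h => by
        obtain ⟨h1, h2⟩ := hind γ γ' h
        rcases hne' with h3 | h3
        · exact h3 h1
        · exact h3 h2
      have hkxA : HK 𝒜 0 (f 0) xA := (k0'.smul α).add (k1a.smul α')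
      have hkxB : HK 𝒜 0 (f 0) xB := (k0'.smul γ).add (k1a.smul γ')
      have hpxA : Rg p.q xA := (r0.smul α).add (r1a.smul α')
      have hpxB : Rg p.q xB := (r0.smul γ).add (r1a.smul γ')
      have hnA : ¬ Rg yA.q xA := by
        obtain ⟨y, hy | hy, hny⟩ := pole0 H hA hv hc hkxA hxA0 (hsrc _ _ hkxA hpxA)
        · exact fun h => hny (A04.same_rg H (wA.uniq yA y hyA hy) hkxA h)
        · exact absurd (A04.same_rg H (wB.uniq yB y hyB hy) hkxA hrB) hny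
      have hnB : ¬ Rg yB.q xB := by
        obtain ⟨y, hy | hy, hny⟩ := pole0 H hA hv hc hkxB hxB0 (hsrc _ _ hkxB hpxB)
        · exact absurd (A04.same_rg H (wA.uniq yA y hyA hy) hkxB hrA) hny
        · exact fun h => hny (A04.same_rg H (wB.uniq yB y hyB hy) hkxB h)
      obtain ⟨a, ha⟩ := stepA xA hkxA hpxA yA hyA hnA
      obtain ⟨b, hb⟩ := stepB xB hkxB hpxB yB hyB hnB
      refine ⟨a • xA + b • xB, (hkxA.smul a).add (hkxB.smul b), (hpxA.smul a).add (hpxB.smul b),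
        fun y hy => ?_, fun y hy => ?_⟩
      · rw [← sub_sub]
        exact (ha y hy).sub ((A04.same_rg H (wA.uniq yA y hyA hy) hkxB hrA).smul b)
      · rw [add_comm, ← sub_sub]
        exact (hb y hy).sub ((A04.same_rg H (wB.uniq yB y hyB hy) hkxA hrB).smul a)
    · -- only the wall `f 1`
      obtain ⟨x, hx, hxp, hx0⟩ := H144.exists_fun H p hp0
      obtain ⟨y, hy | hy, hny⟩ := pole0 H hA hv hc hx hx0 (hsrc _ _ hx hxp)
      · obtain ⟨a, ha⟩ := stepA x hx hxp y hy hny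
        exact ⟨a • x, hx.smul a, hxp.smul a, ha, fun y hy => absurd ⟨y, hy⟩ hexB⟩
      · exact absurd ⟨y, hy⟩ hexB
  · by_cases hall : ∀ y : FP 𝒜, Wall c (f 0 - f 1) y → Rg y.q gB
    · refine ⟨0, HK.zero le_rfl, Rg.zero, fun y hy => absurd ⟨y, hy⟩ hexA, fun y hy => ?_⟩
      rw [sub_zero]
      exact hall y hy
    · push Not at hall
      obtain ⟨yB, hyB, hnB⟩ := hall
      obtain ⟨d, z, hz⟩ := XF.exists_coord H yB hyB.1
      obtain ⟨k, hk⟩ := hkB yB hyB d z hz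
      obtain ⟨l, M, hl, hM, he⟩ := H900.xmon H yB hz hgB hk hnB
      rw [zero_smul, zero_add] at he
      have h1 : yB.Pi (f 1) := by
        obtain ⟨-, ⟨h, -⟩ | ⟨-, h⟩⟩ := rel_fun0 H hA hv hc hyB.1 ca hyB.2 hl hM he
        · exact absurd h.symm (f1_ne hA)
        · exact (hM (f 1) (by rw [h]; simp)).1
      obtain ⟨x, hx, hxp, hx0⟩ := H144.exists_fun H p (pi0_of_wall H hA hc hyB hp h1)
      obtain ⟨y, hy | hy, hny⟩ := pole0 H hA hv hc hx hx0 (hsrc _ _ hx hxp)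
      · exact absurd ⟨y, hy⟩ hexA
      · obtain ⟨b, hb⟩ := stepB x hx hxp y hy hny
        exact ⟨b • x, hx.smul b, hxp.smul b, fun y hy => absurd ⟨y, hy⟩ hexA, hb⟩

theorem two (H : Hyp 𝒜) (hA : AC 𝒜 N n f β E F) (hv : NoVec 𝒜 n f) (hc : Ch2 𝒜 n f c)
    {p : FP 𝒜} (hp : Pos c p) (_hl : p.Pi (-f (Fin.last n))) : Real 𝒜 p (-f (Fin.last n)) := by
  intro t ht htw
  have wA := wallA H hA hv hc
  have wB := wallB H hA hv hc
  have c1 := hc.pos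
  have ca := c01 hA hc
  have hsrc : ∀ (m : Fin r → ℤ) (x : FractionRing R), HK 𝒜 0 m x → Rg p.q x →
      ∀ y0 : FP 𝒜, Pos c y0 → Rg y0.q x := fun m x hx hr y0 hy0 =>
    A04.same_rg H (pos_unique H c hc.ne hp hy0) hx hr
  have hsrcV : ∀ (v : VF R), HV 𝒜 (-f (Fin.last n)) v → RgV p.q v →
      ∀ y0 : FP 𝒜, Pos c y0 → RgV y0.q v := fun v hx hr y0 hy0 =>
    A04.same_rgV H (pos_unique H c hc.ne hp hy0) hx hr
  -- corrections have value zero at `p`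
  have hval : ∀ (i : Fin (n + 1)) (x : FractionRing R), i ≠ Fin.last n → f i ≠ 0 →
      HK 𝒜 0 (f i) x → Rg p.q x → ∀ v : VF R, HV 𝒜 (-f (Fin.last n)) v → ValV p.q v t →
      HV 𝒜 (-f (Fin.last n)) (v - x • E i (Fin.last n)) ∧
        ValV p.q (v - x • E i (Fin.last n)) t := by
    intro i x hi hfi hx hxp v hvv hvt
    have hr := hA.root i (Fin.last n) hi
    have h1 : Val p.q x 0 := val_zero p hx hxp (by rwa [zero_smul])
    obtain ⟨s, hs⟩ := (hr.globE.rgV (q := p.q)).val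
    have h2 := ValV.smul h1 hs
    rw [zero_smul] at h2
    have h3 := hvt.sub h2
    rw [sub_zero] at h3
    exact ⟨hvv.sub ((hr.hvE.smul hx).cast (by abel)), h3⟩
  have hf1 : f 1 ≠ 0 := fun h => by
    rw [h, map_zero] at c1
    exact lt_irrefl _ c1
  have hf0 : f 0 ≠ 0 := fun h => by
    have := c0 hA hc
    rw [h, map_zero] at this
    exact lt_irrefl _ this
  obtain ⟨v, hvv, hvt⟩ := locv H p ht htw
  -- first correction
  obtain ⟨v1, hv1, hv1t, hA1⟩ : ∃ v1 : VF R, HV 𝒜 (-f (Fin.last n)) v1 ∧ ValV p.q v1 t ∧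
      ∃ gA : FractionRing R, HK 𝒜 0 (f 0) gA ∧
        (∀ y : FP 𝒜, Wall c (f 1) y → ∀ d z, Crd y (-f 1) d z →
          ∃ k : ℕ, Rg y.q ((iK z) ^ k * gA)) ∧
        ∀ y : FP 𝒜, Wall c (f 1) y → RgV y.q (v1 - gA • E 0 (Fin.last n)) := by
    by_cases hexA : ∃ yA : FP 𝒜, Wall c (f 1) yA
    · obtain ⟨yA, hyA⟩ := hexA
      obtain ⟨ρ, g0, g1, h1, h2, h3, h4, h5, h6, -, -, h9⟩ := rm_wall H hA hv hc hyA.1 c1 hyA.2
        hvv (wA.field yA hyA _ v hvv (hsrcV v hvv hvt.rgV))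
      have hp1 := wall_pi H hc.ne c1 hyA hp
      obtain ⟨x, hx, hxp, hx0⟩ := H144.exists_fun H p hp1
      have hnA : ¬ Rg yA.q x := by
        obtain ⟨y, hy, hny⟩ := pole1 H hA hv hc hx hx0 (hsrc _ _ hx hxp)
        exact fun h => hny (A04.same_rg H (wA.uniq yA y hyA hy) hx h)
      obtain ⟨d, z, hz⟩ := XF.exists_coord H yA hyA.1
      obtain ⟨α, hα⟩ := H900.polar_one H yA c hyA.2 hz h4 hx (h6 d z hz)
        (wA.fn yA hyA _ x hx (hsrc _ x hx hxp) d z hz) (uniq1 H hA hv hc c1 hyA) hnA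
      obtain ⟨k1, k2⟩ := hval 1 (α • x) (z1L hA.n2) hf1 (hx.smul α) (hxp.smul α) v hvv hvt
      have hgh : HV 𝒜 (-f (Fin.last n))
          (v - (α • x) • E 1 (Fin.last n) - g0 • E 0 (Fin.last n)) :=
        k1.sub (((hA.root 0 (Fin.last n) (z0L hA.n2)).hvE.smul h3).cast (by abel))
      have hreg : RgV yA.q (v - (α • x) • E 1 (Fin.last n) - g0 • E 0 (Fin.last n)) := by
        have e : v - (α • x) • E 1 (Fin.last n) - g0 • E 0 (Fin.last n) =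
            ρ + (g1 - α • x) • E 1 (Fin.last n) := by
          rw [h9, sub_smul_vf]
          abel
        rw [e]
        exact h1.add (RgV.smul hα (hA.root 1 (Fin.last n) (z1L hA.n2)).globE.rgV)
      refine ⟨_, k1, k2, g0, h3, fun y hy d' z' hz' => ?_, fun y hy =>
        A04.same_rgV H (wA.uniq yA y hyA hy) hgh hreg⟩
      obtain ⟨k, hk⟩ := h5 d' z' (H399.same_crd (wA.uniq y yA hy hyA) hz')
      exact ⟨k, same_rg_pow H (wA.uniq yA y hyA hy) h3 hz'.1 hk⟩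
    · exact ⟨v, hvv, hvt, 0, HK.zero le_rfl, fun y hy => absurd ⟨y, hy⟩ hexA,
        fun y hy => absurd ⟨y, hy⟩ hexA⟩
  obtain ⟨gA, hgA, hkA, hrA⟩ := hA1
  obtain ⟨gB, hgB, hkB, hrB⟩ : ∃ gB : FractionRing R, HK 𝒜 0 (f 0) gB ∧
      (∀ y : FP 𝒜, Wall c (f 0 - f 1) y → ∀ d z, Crd y (-(f 0 - f 1)) d z →
        ∃ k : ℕ, Rg y.q ((iK z) ^ k * gB)) ∧
      ∀ y : FP 𝒜, Wall c (f 0 - f 1) y → RgV y.q (v1 - gB • E 0 (Fin.last n)) := by
    by_cases hexB : ∃ yB : FP 𝒜, Wall c (f 0 - f 1) yB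
    · obtain ⟨yB, hyB⟩ := hexB
      obtain ⟨ρ, g0, g1, h1, h2, h3, h4, h5, h6, -, h8, h9⟩ := rm_wall H hA hv hc hyB.1 ca hyB.2
        hv1 (wB.field yB hyB _ v1 hv1 (hsrcV v1 hv1 hv1t.rgV))
      have hg1 : g1 = 0 := h8 fun h => f1_ne hA h.1.symm
      have e : v1 - g0 • E 0 (Fin.last n) = ρ := by
        rw [h9, hg1, zero_smul, add_zero, add_sub_cancel_right]
      refine ⟨g0, h3, fun y hy d' z' hz' => ?_, fun y hy => ?_⟩
      · obtain ⟨k, hk⟩ := h5 d' z' (H399.same_crd (wB.uniq y yB hy hyB) hz')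
        exact ⟨k, same_rg_pow H (wB.uniq yB y hyB hy) h3 hz'.1 hk⟩
      · rw [e]
        exact A04.same_rgV H (wB.uniq yB y hyB hy) h2 h1
    · exact ⟨0, HK.zero le_rfl, fun y hy => absurd ⟨y, hy⟩ hexB,
        fun y hy => absurd ⟨y, hy⟩ hexB⟩
  obtain ⟨x, hx, hxp, hxA, hxB⟩ := interp H hA hv hc hp gA gB hgA hgB hkA hkB
  obtain ⟨k1, k2⟩ := hval 0 x (z0L hA.n2) hf0 hx hxp v1 hv1 hv1t
  refine ⟨v1 - x • E 0 (Fin.last n), glob_of_walls H hA hv hc k1 (hsrcV _ k1 k2.rgV) ?_ ?_,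
    k1, k2⟩
  · intro y hy
    have e : v1 - x • E 0 (Fin.last n) =
        (v1 - gA • E 0 (Fin.last n)) + (gA - x) • E 0 (Fin.last n) := by
      rw [sub_smul_vf]
      abel
    rw [e]
    exact (hrA y hy).add (RgV.smul (hxA y hy) (hA.root 0 (Fin.last n) (z0L hA.n2)).globE.rgV)
  · intro y hy
    have e : v1 - x • E 0 (Fin.last n) =
        (v1 - gB • E 0 (Fin.last n)) + (gB - x) • E 0 (Fin.last n) := by
      rw [sub_smul_vf]
      abel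
    rw [e]
    exact (hrB y hy).add (RgV.smul (hxB y hy) (hA.root 0 (Fin.last n) (z0L hA.n2)).globE.rgV)

end

end Vale.Agent.P280.N2
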